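import Mathlib
import Vale.Agent.P027.R2.H124.KDio
import Vale.Agent.P027.R2.H124.Cap3

/-! Definitions for the theorem on sets of primes of density close to one. -/

namespace Vale.Agent.P027.T3

open Vale.Agent.P027 Module IsDedekindDomain

section

variable {K : Type} [Field K] [NumberField K]

/-- integral at the rational prime `r` -/
def Pint (r : ℕ) (x : K) : Prop := ∃ s : ℕ, ¬ r ∣ s ∧ IsIntegral ℤ ((s : K) * x)

/-- integral outside `p` -/
def Out (p : ℕ) (x : K) : Prop := ∃ k : ℕ, IsIntegral ℤ ((p : K) ^ k * x)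

end

/-- The field data: `K` is Galois over the rationals with cyclic group generated by `σ`, the degree
is `2 * m` with `m` odd, `σ ^ m` is the complex conjugation, `bas` is an integral basis, and `φ` is
an embedding in the `p`-adic numbers. -/
structure Fld (p : ℕ) [Fact p.Prime] (K : Type) [Field K] [NumberField K] where
  m : ℕ
  odd : Odd m
  bas : Basis (Fin (2 * m)) ℚ K
  int : ∀ x : K, IsIntegral ℤ x ↔ ∀ i, ∃ z : ℤ, bas.repr x i = z
  σ : K ≃ₐ[ℚ] K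
  ord : σ ^ (2 * m) = 1
  gen : ∀ τ : K ≃ₐ[ℚ] K, ∃ i, i < 2 * m ∧ τ = σ ^ i
  gal : IsGalois ℚ K
  cm : ∀ (f : K →+* ℂ) (x : K), f ((σ ^ m) x) = starRingEnd ℂ (f x)
  φ : K →+* ℚ_[p]

variable {p : ℕ} [Fact p.Prime] {K : Type} [Field K] [NumberField K]

/-- the torus group; the degree is `6 * s`; the absolute values at the places `σ ^ i` outside
four classes are one -/
def Tor (D : Fld p K) (s : ℕ) (t : K) : Prop :=
  Out p t ∧ t * (D.σ ^ (3 * s)) t = 1 ∧ t * (D.σ ^ (2 * s)) t * (D.σ ^ (4 * s)) t = 1 ∧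
    ∀ i, i < 2 * D.m → i ≠ 0 → i ≠ 2 * s → i ≠ 3 * s → i ≠ 5 * s → ‖D.φ ((D.σ ^ i) t)‖ = 1

/-- the group ring element `∑ l i σ ^ i` in exponential notation -/
def ev (D : Fld p K) (l : ℕ → ℤ) (z : K) : K :=
  ∏ i ∈ Finset.range (2 * D.m), ((D.σ ^ i) z) ^ l i

/-- the base of the exponential function -/
structure Base (D : Fld p K) (β : K) (V : ℕ) : Prop where
  V_pos : 0 < V
  ne : β ≠ 0
  conj : (D.σ ^ D.m) β = β⁻¹
  out : Out p β
  out_inv : Out p β⁻¹
  val : ‖D.φ β‖ = (p : ℝ) ^ (-(V : ℤ))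
  val' : ∀ i, i < 2 * D.m → i ≠ 0 → i ≠ D.m →
    ‖D.φ ((D.σ ^ i) β)‖ ≤ (p : ℝ) ^ (-(2 * V : ℤ)) ∨
      (p : ℝ) ^ (2 * V : ℤ) ≤ ‖D.φ ((D.σ ^ i) β)‖
  c12 : ∃ δ, Out p δ ∧ β = 1 + 12 * δ

/-- the quotients `τ i = (A ^ i - 1) / (A ^ i + 1)`, `A = β ^ 2` -/
def tau (β : K) (i : ℕ) : K := (β ^ (2 * i) - 1) / (β ^ (2 * i) + 1)

/-- norms from the `p ^ e`-th cyclotomic extension -/
def NT (K : Type) [Field K] [NumberField K] (p e : ℕ) (x : K) : Prop :=
  ∃ y : CyclotomicField (p ^ e) K, Algebra.norm K y = x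

/-- `1 + X ^ 2 + ... + X ^ (2 * (p - 1))` -/
def kap (p : ℕ) (X : K) : K := ∑ i ∈ Finset.range p, X ^ (2 * i)

/-- a common prime different from `p` of the members of the list, in a Diophantine way -/
def CPp (p : ℕ) (A : List ℚ) : Prop :=
  ∃ a b : ℚ, T2.Five12 b ∧ padicValRat p b = 0 ∧ T2.Cap3 a b ∧ T2.Con3 a b 1 ∧
    ∀ x ∈ A, T2.Con3 a b (x / b)

/-- a common prime ideal of the members of the list, in a Diophantine way -/
def CPK (D : Fld p K) (A : List K) : Prop :=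
  ∃ w : K, (∃ k, D.bas.repr w k = 1) ∧
    CPp p (A.flatMap (fun x => List.ofFn (fun i => D.bas.repr (x * w) i)))

end Vale.Agent.P027.T3
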