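import Vale.Agent.P027.R3.H250.P1
import Vale.Agent.P027.R2.H250.IntP

set_option linter.all false

/-! The valuation ring of the embedding is Diophantine. -/

namespace Vale.Agent.P027.T3

open Vale.Agent.P027 Module IsDedekindDomain NumberField

variable {p : ℕ} [hpF : Fact p.Prime] {K : Type} [Field K] [NumberField K]

theorem norm_pow_sub_one_lt {u : ℚ_[p]} (hu : ‖u‖ = 1) (N : ℕ) : ‖u ^ ((p - 1) * N) - 1‖ < 1 := by
  obtain ⟨z, hz⟩ : ∃ z : ℤ_[p], (z : ℚ_[p]) = u := ⟨⟨u, hu.le⟩, rfl⟩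
  have h1 : ‖z‖ = 1 := by rw [PadicInt.norm_def, hz, hu]
  have h2 : PadicInt.toZMod z ≠ 0 := by
    intro h
    have h3 : z ∈ RingHom.ker (PadicInt.toZMod (p := p)) := h
    rw [PadicInt.ker_toZMod, PadicInt.maximalIdeal_eq_span_p, Ideal.mem_span_singleton,
      ← PadicInt.norm_lt_one_iff_dvd]
      at h3
    exact absurd h1 h3.ne
  have h4 : z ^ ((p - 1) * N) - 1 ∈ RingHom.ker (PadicInt.toZMod (p := p)) := by
    rw [RingHom.mem_ker, map_sub, map_pow, map_one, pow_mul, ZMod.pow_card_sub_one_eq_one h2,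
      one_pow, sub_self]
  rw [PadicInt.ker_toZMod, PadicInt.maximalIdeal_eq_span_p, Ideal.mem_span_singleton,
      ← PadicInt.norm_lt_one_iff_dvd]
    at h4
  rw [PadicInt.norm_def] at h4
  push_cast at h4
  rw [hz] at h4
  exact h4

theorem norm_eq_one_of_sub {a : ℚ_[p]} (h : ‖a - 1‖ < 1) : ‖a‖ = 1 := by
  have h1 : ‖(a - 1) + 1‖ = max ‖a - 1‖ ‖(1 : ℚ_[p])‖ :=
    Padic.add_eq_max_of_ne (by rw [norm_one]; exact h.ne)
  rw [sub_add_cancel, norm_one, max_eq_right h.le] at h1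
  exact h1

/-- the condition `‖φ z‖ ≤ 1` in terms of integrality conditions at `p` -/
theorem val_iff' (D : Fld p K) {π : K} (hπ : Pint p π) (h1 : ‖D.φ π‖ < 1)
    (h2 : ∀ i, 0 < i → i < 2 * D.m → ‖D.φ ((D.σ ^ i) π)‖ = 1) (z : K) : ‖D.φ z‖ ≤ 1 ↔
    ∃ w : K, Pint p w ∧ ‖D.φ w - 1‖ < 1 ∧ Pint p (w * z) := by
  constructor
  · intro hz
    obtain ⟨w₀, hw₀⟩ : ∃ w₀ : K, w₀ = ∏ i ∈ Finset.Ico 1 (2 * D.m), (D.σ ^ i) π := ⟨_, rfl⟩
    have hle : ∀ i, ‖D.φ ((D.σ ^ i) π)‖ ≤ 1 := fun i => norm_le_of_pint D hπ i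
    have hw0 : ‖D.φ w₀‖ = 1 := by
      rw [hw₀, map_prod, norm_prod]
      refine Finset.prod_eq_one (fun i hi => ?_)
      rw [Finset.mem_Ico] at hi
      exact h2 i (by omega) hi.2
    have hwj : ∀ j, 0 < j → j < 2 * D.m → ‖D.φ ((D.σ ^ j) w₀)‖ < 1 := by
      intro j hj hj2
      rw [hw₀, map_prod, map_prod, norm_prod,
        ← Finset.mul_prod_erase _ _ (Finset.mem_Ico.2 ⟨by omega, by omega⟩ :
          2 * D.m - j ∈ Finset.Ico 1 (2 * D.m))]
      have e : (D.σ ^ j) ((D.σ ^ (2 * D.m - j)) π) = π := by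
        rw [← AlgEquiv.mul_apply, ← pow_add, show j + (2 * D.m - j) = 2 * D.m by omega, D.ord]
        rfl
      rw [e]
      refine lt_of_le_of_lt (mul_le_of_le_one_right (norm_nonneg _) ?_) h1
      refine Finset.prod_le_one (fun _ _ => norm_nonneg _) (fun i _ => ?_)
      rw [← AlgEquiv.mul_apply, ← pow_add]
      exact hle _
    -- a large power kills the denominators
    obtain ⟨N, hN⟩ : ∃ N : ℕ, ∀ j, 0 < j → j < 2 * D.m →
        ‖D.φ ((D.σ ^ j) (w₀ ^ ((p - 1) * N) * z))‖ ≤ 1 := by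
      have hex : ∀ j : ℕ, ∃ N : ℕ, 0 < j → j < 2 * D.m → ∀ M, N ≤ M →
          ‖D.φ ((D.σ ^ j) (w₀ ^ M * z))‖ ≤ 1 := by
        intro j
        by_cases hj : 0 < j ∧ j < 2 * D.m
        · have hlt := hwj j hj.1 hj.2
          have ht : Filter.Tendsto (fun M : ℕ => ‖D.φ ((D.σ ^ j) w₀)‖ ^ M *
              ‖D.φ ((D.σ ^ j) z)‖) Filter.atTop (nhds (0 * ‖D.φ ((D.σ ^ j) z)‖)) :=
            (tendsto_pow_atTop_nhds_zero_of_lt_one (norm_nonneg _) hlt).mul_const _
          rw [zero_mul] at ht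
          obtain ⟨N, hN⟩ := Filter.eventually_atTop.1 (ht.eventually (eventually_le_nhds
            (zero_lt_one)))
          refine ⟨N, fun _ _ M hM => ?_⟩
          rw [map_mul, map_pow, map_mul, map_pow, norm_mul, norm_pow]
          exact hN M hM
        · exact ⟨0, fun h1 h2 => absurd ⟨h1, h2⟩ hj⟩
      choose N hN using hex
      refine ⟨∑ j ∈ Finset.range (2 * D.m), N j, fun j hj hj2 => hN j hj hj2 _ ?_⟩
      have h3 : N j ≤ ∑ j ∈ Finset.range (2 * D.m), N j :=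
        Finset.single_le_sum (fun _ _ => Nat.zero_le _) (Finset.mem_range.2 hj2)
      have h4 : 1 ≤ p - 1 := by have := hpF.out.two_le; omega
      exact h3.trans (Nat.le_mul_of_pos_left _ h4)
    refine ⟨w₀ ^ ((p - 1) * N), ?_, ?_, ?_⟩
    · refine pint_of_norm_le D (fun i _ => ?_)
      rw [map_pow, map_pow, norm_pow]
      refine pow_le_one₀ (norm_nonneg _) ?_
      rw [hw₀, map_prod, map_prod, norm_prod]
      refine Finset.prod_le_one (fun _ _ => norm_nonneg _) (fun k _ => ?_)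
      rw [← AlgEquiv.mul_apply, ← pow_add]
      exact hle _
    · rw [map_pow]
      exact norm_pow_sub_one_lt hw0 N
    · refine pint_of_norm_le D (fun i hi => ?_)
      rcases Nat.eq_zero_or_pos i with h0 | h0
      · subst h0
        rw [pow_zero, AlgEquiv.one_apply, map_mul, map_pow, norm_mul, norm_pow, hw0, one_pow,
          one_mul]
        exact hz
      · exact hN i h0 hi
  · rintro ⟨w, hw, hw1, hwz⟩
    have h3 := norm_le_of_pint D hwz 0
    rw [pow_zero, AlgEquiv.one_apply, map_mul, norm_mul, norm_eq_one_of_sub hw1, one_mul] at h3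
    exact h3

/-- residues of the basis -/
theorem exists_residue (D : Fld p K) : ∃ c : Fin (2 * D.m) → ℤ, ∀ i,
    ‖D.φ (D.bas i) - c i‖ < 1 := by
  have h : ∀ i, ∃ c : ℤ, ‖D.φ (D.bas i) - c‖ < 1 := by
    intro i
    have hint : IsIntegral ℤ (D.bas i) := by
      rw [D.int]
      intro j
      rw [Basis.repr_self]
      by_cases hij : i = j
      · subst hij; exact ⟨1, by simp⟩
      · exact ⟨0, by simp [Finsupp.single_apply, hij]⟩
    have h1 : ‖D.φ (D.bas i)‖ ≤ 1 := by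
      have := norm_le_of_pint D (Pint.of_integral hpF.out hint) 0
      simpa using this
    obtain ⟨z, hz⟩ : ∃ z : ℤ_[p], (z : ℚ_[p]) = D.φ (D.bas i) := ⟨⟨_, h1⟩, rfl⟩
    refine ⟨(PadicInt.zmodRepr z : ℤ), ?_⟩
    have h2 := PadicInt.sub_zmodRepr_mem z
    rw [PadicInt.maximalIdeal_eq_span_p, Ideal.mem_span_singleton, ← PadicInt.norm_lt_one_iff_dvd,
      PadicInt.norm_def] at h2
    push_cast at h2
    rw [hz] at h2
    simpa using h2
  choose c hc using h
  exact ⟨c, hc⟩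

theorem dio_pint (D : Fld p K) {r : ℕ} (hr : r.Prime) {f : (ℕ → ℚ) → K} (hf : FnK D.bas f) :
    Dio (fun v => Pint r (f v)) := by
  refine (dio_fin (S := fun i v => 0 ≤ padicValRat r (D.bas.repr (f v) i))
    (fun i => T2.dio_intp hr (hf i))).congr (fun v => ?_)
  rw [pint_iff D hr]

/-- the condition `‖φ x‖ ≤ 1` is Diophantine -/
theorem dio_val (D : Fld p K) {π : K} (hπ : Pint p π) (h1 : ‖D.φ π‖ < 1)
    (h2 : ∀ i, 0 < i → i < 2 * D.m → ‖D.φ ((D.σ ^ i) π)‖ = 1) {f : (ℕ → ℚ) → K}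
    (hf : FnK D.bas f) : Dio (fun v => ‖D.φ (f v)‖ ≤ 1) := by
  obtain ⟨c, hc⟩ := exists_residue D
  have hp := hpF.out
  have hp0 : (p : ℚ) ≠ 0 := by exact_mod_cast hp.ne_zero
  -- the linear congruence
  have key : ∀ w : K, Pint p w → (‖D.φ w - 1‖ < 1 ↔
      0 ≤ padicValRat p ((∑ i, D.bas.repr w i * c i - 1) / p)) := by
    intro w hw
    have hwi : ∀ i, ‖((D.bas.repr w i : ℚ) : ℚ_[p])‖ ≤ 1 := by
      intro i
      have := (pint_iff D hp).1 hw i
      rw [Padic.eq_padicNorm]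
      exact_mod_cast pn_le_one_iff.2 this
    have e1 : D.φ w - ((∑ i, D.bas.repr w i * c i : ℚ) : ℚ_[p]) =
        ∑ i, ((D.bas.repr w i : ℚ) : ℚ_[p]) * (D.φ (D.bas i) - c i) := by
      conv_lhs => rw [← D.bas.sum_repr w]
      rw [map_sum]
      push_cast
      rw [← Finset.sum_sub_distrib]
      refine Finset.sum_congr rfl (fun i _ => ?_)
      rw [Algebra.smul_def, map_mul]
      have : D.φ (algebraMap ℚ K (D.bas.repr w i)) = ((D.bas.repr w i : ℚ) : ℚ_[p]) := by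
        simp
      rw [D.bas.sum_repr, this]
      ring
    have e2 : ‖D.φ w - ((∑ i, D.bas.repr w i * c i : ℚ) : ℚ_[p])‖ < 1 := by
      rw [e1]
      have h3 : ∀ i ∈ (Finset.univ : Finset (Fin (2 * D.m))),
          ‖((D.bas.repr w i : ℚ) : ℚ_[p]) * (D.φ (D.bas i) - c i)‖ < 1 := by
        intro i _
        rw [norm_mul]
        exact lt_of_le_of_lt (mul_le_of_le_one_left (norm_nonneg _) (hwi i)) (hc i)
      exact Finset.sum_induction _ (fun x : ℚ_[p] => ‖x‖ < 1)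
        (fun a b ha hb => lt_of_le_of_lt (Padic.nonarchimedean a b) (max_lt ha hb))
        (by simp) h3
    obtain ⟨S, hS⟩ : ∃ S : ℚ, S = ∑ i, D.bas.repr w i * c i := ⟨_, rfl⟩
    rw [← hS] at e2 ⊢
    have e3 : ‖D.φ w - 1‖ < 1 ↔ ‖((S - 1 : ℚ) : ℚ_[p])‖ < 1 := by
      push_cast
      constructor
      · intro h
        have : (S : ℚ_[p]) - 1 = (D.φ w - 1) - (D.φ w - S) := by ring
        rw [this]
        exact lt_of_le_of_lt ((by
          have := Padic.nonarchimedean (D.φ w - 1) (-(D.φ w - (S : ℚ_[p])))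
          rwa [norm_neg, ← sub_eq_add_neg] at this :
          _ ≤ max ‖D.φ w - 1‖ ‖D.φ w - (S : ℚ_[p])‖)) (max_lt h e2)
      · intro h
        have : D.φ w - 1 = (D.φ w - S) + ((S : ℚ_[p]) - 1) := by ring
        rw [this]
        exact lt_of_le_of_lt (Padic.nonarchimedean _ _) (max_lt e2 h)
    rw [e3, Padic.eq_padicNorm]
    generalize S - 1 = x
    by_cases hx : x = 0
    · subst hx; simp
    · rw [padicValRat.div hx hp0, padicValRat.self hp.one_lt, padicNorm.eq_zpow_of_nonzero hx]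
      push_cast
      rw [zpow_lt_one_iff_right₀ (by exact_mod_cast hp.one_lt)]
      omega
  have h : Dio (fun v => ∃ w : K, Pint p w ∧
      0 ≤ padicValRat p ((∑ i, D.bas.repr w i * c i - 1) / p) ∧ Pint p (w * f v)) := by
    refine exK (b := D.bas) ?_
    refine Dio.and (dio_pint D hp (fnK_kv 0)) (Dio.and ?_ (dio_pint D hp
      ((fnK_kv 0).mul (hf.dr _))))
    refine T2.dio_intp hp (DioFn.div (DioFn.sub (fn_sum _ (fun i => ?_)) (fn_rat 1)) (fn_rat p))
    exact (fnK_kv 0 i).mul (fn_rat _)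
  refine h.congr (fun v => ?_)
  rw [val_iff' D hπ h1 h2]
  constructor
  · rintro ⟨w, hw, hw1, hw2⟩
    exact ⟨w, hw, (key w hw).1 hw1, hw2⟩
  · rintro ⟨w, hw, hw1, hw2⟩
    exact ⟨w, hw, (key w hw).2 hw1, hw2⟩

end Vale.Agent.P027.T3
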