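import Vale.Agent.P027.R3.H250.Cap8
import Vale.Agent.P027.R3.H250.P2

set_option linter.all false

/-! The common prime ideal predicate. -/

namespace Vale.Agent.P027.T3

open Vale.Agent.P027 Module IsDedekindDomain NumberField

variable {p : ℕ} [hpF : Fact p.Prime] {K : Type} [Field K] [NumberField K]

theorem Pint.of_out {r : ℕ} (hr : r.Prime) (hrp : r ≠ p) {x : K} (hx : Out p x) : Pint r x :=
  out_iff.1 hx r hr hrp

theorem Pint.natCast {r : ℕ} (hr : r.Prime) (n : ℕ) : Pint r (n : K) :=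
  Pint.of_integral hr (isIntegral_natCast_K n)

theorem exists_pint_pow {q : ℕ} (hq : q.Prime) (w : K) : ∃ j : ℕ, Pint q ((q : K) ^ j * w) := by
  obtain ⟨d, hd, hi⟩ := exists_den w
  obtain ⟨j, m, hm, hjm⟩ := Nat.exists_eq_pow_mul_and_not_dvd (Int.natAbs_ne_zero.2 hd) q
    hq.one_lt.ne'
  refine ⟨j, m, hm, ?_⟩
  have h1 : IsIntegral ℤ ((d.natAbs : K) * w) := by
    rcases Int.natAbs_eq d with h | h
    · rw [h] at hi
      simpa using hi
    · rw [h] at hi
      simpa using hi.neg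
  have e : (m : K) * ((q : K) ^ j * w) = (d.natAbs : K) * w := by
    rw [hjm]; push_cast; ring
  rw [e]
  exact h1

/-- soundness, with a prime ideal of the ring of `p`-integers -/
theorem CPK.sound' {D : Fld p K} {A : List K} (h : CPK D A) :
    ∃ q : ℕ, T2.Inert3 q ∧ q ≠ p ∧ ∃ Q : Ideal (OutRing p K), Q.IsPrime ∧
      (q : OutRing p K) ∈ Q ∧ ∀ x : OutRing p K, (x : K) ∈ A → x ∈ Q := by
  obtain ⟨w, ⟨k, hk⟩, hc⟩ := h
  obtain ⟨q, hq, hqp, hall⟩ := hc.sound
  have hqP := hq.1
  have hqF := Fact.mk hqP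
  have hq0 : (q : K) ≠ 0 := by exact_mod_cast hqP.ne_zero
  refine ⟨q, hq, hqp, ?_⟩
  -- the products are divisible by `q`
  have hdiv : ∀ x ∈ A, Pint q (x * w / q) := by
    intro x hx
    rw [pint_iff D hqP]
    intro i
    have e : D.bas.repr (x * w / q) i = D.bas.repr (x * w) i / q := by
      have : x * w / q = ((q : ℚ)⁻¹) • (x * w) := by
        rw [Algebra.smul_def]; simp [div_eq_mul_inv, mul_comm]
      rw [this, map_smul]
      simp [div_eq_mul_inv, mul_comm]
    rw [e]
    have h1 := hall (D.bas.repr (x * w) i) (by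
      rw [List.mem_flatMap]
      exact ⟨x, hx, by rw [List.mem_ofFn]; exact ⟨i, rfl⟩⟩)
    rcases h1 with h1 | h1
    · rw [h1]; simp
    · have h2 : D.bas.repr (x * w) i ≠ 0 := by
        intro h0
        rw [h0] at h1
        simp at h1
      have h3 : (q : ℚ) ≠ 0 := by exact_mod_cast hqP.ne_zero
      rw [padicValRat.div h2 h3, padicValRat.self hqP.one_lt]
      omega
  -- a primitive multiple
  obtain ⟨j, hj, hj'⟩ : ∃ j : ℕ, Pint q ((q : K) ^ j * w) ∧ ¬ Pint q ((q : K) ^ j * w / q) := by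
    classical
    have hex := exists_pint_pow hqP w
    refine ⟨Nat.find hex, Nat.find_spec hex, ?_⟩
    rcases Nat.eq_zero_or_pos (Nat.find hex) with h0 | h0
    · rw [h0, pow_zero, one_mul]
      intro hn
      have h1 := (pint_iff D hqP).1 hn k
      have e : D.bas.repr (w / q) k = (q : ℚ)⁻¹ := by
        have : w / q = ((q : ℚ)⁻¹) • w := by
          rw [Algebra.smul_def]; simp [div_eq_mul_inv, mul_comm]
        rw [this, map_smul]
        simp [hk]
      rw [e, padicValRat.inv, padicValRat.self hqP.one_lt] at h1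
      omega
    · intro hn
      have h1 := Nat.find_min hex (m := Nat.find hex - 1) (by omega)
      apply h1
      have e : (q : K) ^ (Nat.find hex) = q ^ (Nat.find hex - 1) * q := by
        rw [← pow_succ]; congr 1; omega
      rw [e] at hn
      have e2 : ∀ M : K, M * q * w / q = M * w := by
        intro M; field_simp
      rwa [e2] at hn
  obtain ⟨w', hw'⟩ : ∃ w' : K, w' = (q : K) ^ j * w := ⟨_, rfl⟩
  rw [← hw'] at hj hj'
  -- the ideal
  let I : Ideal (OutRing p K) :=
    { carrier := {y | Pint q ((y : K) * w' / q)}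
      add_mem' := by
        intro a b ha hb
        simp only [Set.mem_ofPred_eq] at *
        have e : ((a + b : OutRing p K) : K) * w' / q = (a : K) * w' / q + (b : K) * w' / q := by
          push_cast; ring
        rw [e]
        exact ha.add hqP hb
      zero_mem' := by
        simp only [Set.mem_ofPred_eq]
        have e : ((0 : OutRing p K) : K) * w' / q = 0 := by simp
        rw [e]
        exact Pint.of_integral hqP isIntegral_zero
      smul_mem' := by
        intro c a ha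
        simp only [Set.mem_ofPred_eq] at *
        have e : ((c • a : OutRing p K) : K) * w' / q = (c : K) * ((a : K) * w' / q) := by
          rw [smul_eq_mul]; push_cast; ring
        rw [e]
        exact (Pint.of_out hqP hqp c.2).mul hqP ha }
  have hI : ∀ y : OutRing p K, y ∈ I ↔ Pint q ((y : K) * w' / q) := fun y => Iff.rfl
  have hItop : I ≠ ⊤ := by
    intro h
    have : (1 : OutRing p K) ∈ I := by rw [h]; trivial
    rw [hI] at this
    apply hj'
    simpa using this
  obtain ⟨Q, hQ, hIQ⟩ := Ideal.exists_le_maximal I hItop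
  refine ⟨Q, hQ.isPrime, hIQ ?_, fun x hx => hIQ ?_⟩
  · rw [hI]
    have e : (((q : OutRing p K) : OutRing p K) : K) * w' / q = w' := by
      push_cast; field_simp
    rw [e]
    exact hj
  · rw [hI]
    have e : (x : K) * w' / q = (q : K) ^ j * ((x : K) * w / q) := by
      rw [hw']; ring
    rw [e]
    refine Pint.mul hqP ?_ (hdiv _ hx)
    have := Pint.natCast (K := K) hqP (q ^ j)
    simpa using this

theorem out_coord (D : Fld p K) {x : K} (hx : Out p x) (i : Fin (2 * D.m)) :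
    ∃ (n : ℤ) (t : ℕ), D.bas.repr x i = n / p ^ t := by
  obtain ⟨t, ht⟩ := hx
  obtain ⟨z, hz⟩ := (D.int _).1 ht i
  refine ⟨z, t, ?_⟩
  have hp0 : (p : ℚ) ≠ 0 := by exact_mod_cast hpF.out.ne_zero
  rw [eq_div_iff (pow_ne_zero _ hp0), ← hz]
  have : (p : K) ^ t * x = ((p : ℚ) ^ t) • x := by
    rw [Algebra.smul_def]; simp
  rw [this, map_smul]
  simp [mul_comm]

/-- completeness, with a prime ideal of the ring of `p`-integers -/
theorem CPK.complete' (D : Fld p K) (hp : p % 12 = 7) {A : List K} {q : ℕ} (hq : T2.Inert3 q)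
    (hqp : q ≠ p) {Q : Ideal (OutRing p K)} (hQ : Q.IsPrime) (hqQ : (q : OutRing p K) ∈ Q)
    (hA : ∀ x ∈ A, ∃ y ∈ Q, ((y : OutRing p K) : K) = x) : CPK D A := by
  have hqP := hq.1
  have hq0 : (q : K) ≠ 0 := by exact_mod_cast hqP.ne_zero
  have hpP := hpF.out
  -- the prime ideal of the ring of integers
  let ι : 𝓞 K →+* OutRing p K :=
    { toFun := fun x => ⟨x, Out.of_integral x.2⟩
      map_one' := rfl
      map_mul' := fun _ _ => rfl
      map_zero' := rfl
      map_add' := fun _ _ => rfl }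
  have hι : ∀ x : 𝓞 K, ((ι x : OutRing p K) : K) = x := fun _ => rfl
  obtain ⟨𝔮, h𝔮⟩ : ∃ 𝔮 : Ideal (𝓞 K), 𝔮 = Q.comap ι := ⟨_, rfl⟩
  have hq𝔮 : Ideal.span {(q : 𝓞 K)} ≤ 𝔮 := by
    rw [Ideal.span_singleton_le_iff_mem, h𝔮, Ideal.mem_comap, map_natCast]
    exact hqQ
  have h𝔮top : 𝔮 ≠ ⊤ := by
    rw [h𝔮]
    exact Ideal.comap_ne_top _ hQ.ne_top
  have hq0' : (q : 𝓞 K) ≠ 0 := by exact_mod_cast hqP.ne_zero
  obtain ⟨J, hJ⟩ := Ideal.dvd_iff_le.2 hq𝔮
  have hspan0 : Ideal.span {(q : 𝓞 K)} ≠ 0 := by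
    rw [Ne, Ideal.zero_eq_bot, Ideal.span_singleton_eq_bot]
    exact hq0'
  have hJ0 : J ≠ 0 := by
    rintro rfl
    rw [mul_zero] at hJ
    exact hspan0 hJ
  have hJlt : Ideal.span {(q : 𝓞 K)} < J := by
    refine lt_of_le_of_ne ?_ ?_
    · rw [hJ]; exact Ideal.mul_le_right
    · intro h
      rw [h] at hJ
      have : 𝔮 * J = 1 * J := by rw [one_mul]; exact hJ.symm
      exact h𝔮top (by
        have := mul_right_cancel₀ hJ0 this
        rwa [Ideal.one_eq_top] at this)
  obtain ⟨w₀, hw₀, hw₀'⟩ := SetLike.exists_of_lt hJlt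
  have hw₀q : ¬ IsIntegral ℤ ((w₀ : K) / q) := by
    intro h
    apply hw₀'
    rw [Ideal.mem_span_singleton]
    refine ⟨⟨_, h⟩, ?_⟩
    apply RingOfIntegers.ext
    show (w₀ : K) = ((q : 𝓞 K) : K) * ((w₀ : K) / q)
    push_cast
    field_simp
  have hkey : ∀ y ∈ Q, Out p (((y : OutRing p K) : K) * w₀ / q) := by
    intro y hy
    obtain ⟨t, ht⟩ := y.2
    obtain ⟨y', hy'⟩ : ∃ y' : 𝓞 K, (y' : K) = (p : K) ^ t * (y : K) := ⟨⟨_, ht⟩, rfl⟩
    have h1 : y' ∈ 𝔮 := by
      rw [h𝔮, Ideal.mem_comap]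
      have : ι y' = (p : OutRing p K) ^ t * y := by
        apply Subtype.ext
        show (y' : K) = _
        rw [hy']
        push_cast
        rfl
      rw [this]
      exact Q.mul_mem_left _ hy
    have h2 := Ideal.mul_mem_mul h1 hw₀
    rw [← hJ, Ideal.mem_span_singleton] at h2
    obtain ⟨u, hu⟩ := h2
    have h3 := congrArg (fun x : 𝓞 K => (x : K)) hu
    have h4 : (p : K) ^ t * (y : K) * (w₀ : K) = (q : K) * (u : K) := by
      rw [← hy']
      simpa using h3
    refine ⟨t, ?_⟩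
    have e : (p : K) ^ t * ((y : K) * w₀ / q) = u := by
      rw [mul_div_assoc', div_eq_iff hq0]
      linear_combination h4
    rw [e]
    exact u.2
  -- a coordinate prime to `q`
  have hcoord : ∀ i, ∃ z : ℤ, D.bas.repr (w₀ : K) i = z := (D.int _).1 w₀.2
  choose c hc using hcoord
  obtain ⟨k, hk⟩ : ∃ k, ¬ (q : ℤ) ∣ c k := by
    by_contra hcon
    push Not at hcon
    apply hw₀q
    rw [D.int]
    intro i
    obtain ⟨d, hd⟩ := hcon i
    refine ⟨d, ?_⟩
    have : (w₀ : K) / q = ((q : ℚ)⁻¹) • (w₀ : K) := by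
      rw [Algebra.smul_def]; simp [div_eq_mul_inv, mul_comm]
    rw [this, map_smul, Finsupp.smul_apply, hc, hd, smul_eq_mul]
    have : (q : ℚ) ≠ 0 := by exact_mod_cast hqP.ne_zero
    push_cast
    field_simp
  have hco : IsCoprime (c k) (q : ℤ) :=
    ((Nat.prime_iff_prime_int.1 hqP).coprime_iff_not_dvd.2 hk).symm
  obtain ⟨s, m', hsm⟩ := hco
  have hrepr : ∀ (a : ℤ) (x : K) (i), D.bas.repr ((a : K) * x) i = a * D.bas.repr x i := by
    intro a x i
    have : (a : K) * x = ((a : ℚ)) • x := by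
      rw [Algebra.smul_def]; simp
    rw [this, map_smul]
    simp
  refine ⟨(s : K) * w₀ + (m' : K) * ((q : ℤ) * D.bas k), ⟨k, ?_⟩, ?_⟩
  · rw [map_add, Finsupp.add_apply, hrepr, hrepr, hrepr, hc, Basis.repr_self]
    simp only [Finsupp.single_eq_same, mul_one]
    exact_mod_cast hsm
  · have hint : IsIntegral ℤ (D.bas k) := by
      rw [D.int]
      intro j
      rw [Basis.repr_self]
      by_cases hij : k = j
      · subst hij; exact ⟨1, by simp⟩
      · exact ⟨0, by simp [Finsupp.single_apply, hij]⟩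
    refine CPp.complete hpP (by rintro rfl; omega) (by rintro rfl; omega) hq hqp _ ?_
    intro x hx
    rw [List.mem_flatMap] at hx
    obtain ⟨a, ha, hx⟩ := hx
    rw [List.mem_ofFn] at hx
    obtain ⟨i, rfl⟩ := hx
    obtain ⟨y, hy, rfl⟩ := hA a ha
    have hz : Out p ((s : K) * ((y : K) * w₀ / q) + (m' : K) * ((y : K) * D.bas k)) :=
      ((Out.intCast s).mul (hkey y hy)).add
        ((Out.intCast m').mul (Out.mul y.2 (Out.of_integral hint)))
    obtain ⟨n, t, hn⟩ := out_coord D hz i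
    refine ⟨n, t, ?_⟩
    have e : (y : K) * ((s : K) * w₀ + (m' : K) * ((q : ℤ) * D.bas k)) =
        ((q : ℤ) : K) * ((s : K) * ((y : K) * w₀ / q) + (m' : K) * ((y : K) * D.bas k)) := by
      push_cast
      field_simp
    rw [e, hrepr, hn]
    push_cast
    ring

theorem dio_cpp {A : List ((ℕ → ℚ) → ℚ)} (hA : ∀ f ∈ A, DioFn f) :
    Dio (fun v => CPp p (A.map (fun f => f v))) := by
  unfold CPp
  refine Dio.ex (S := fun a v => ∃ b : ℚ, T2.Five12 b ∧ padicValRat p b = 0 ∧ T2.Cap3 a b ∧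
    T2.Con3 a b 1 ∧ ∀ x ∈ A.map (fun f => f v), T2.Con3 a b (x / b)) ?_
  refine Dio.ex (S := fun b v => T2.Five12 b ∧ padicValRat p b = 0 ∧ T2.Cap3 (v 0) b ∧
    T2.Con3 (v 0) b 1 ∧ ∀ x ∈ A.map (fun f => f (tl v)), T2.Con3 (v 0) b (x / b)) ?_
  refine (T2.dio_five12 (DioFn.var 0)).and (Dio.and ?_
    ((T2.dio_cap3 (DioFn.var 1) (DioFn.var 0)).and
    ((T2.dio_con3 (DioFn.var 1) (DioFn.var 0) one_fn).and ?_)))
  · have h := (T2.dio_intp hpF.out (DioFn.var 0)).and
      (T2.dio_intp hpF.out (DioFn.div one_fn (DioFn.var 0)))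
    refine h.congr (fun v => ?_)
    rw [one_div, padicValRat.inv]
    constructor
    · intro h; rw [h]; simp
    · rintro ⟨h1, h2⟩; omega
  · have h := T2.dio_forall_list (A := A.map (fun f => fun v : ℕ → ℚ => f (tl (tl v))))
      (Q := fun x v => T2.Con3 (v 1) (v 0) (x / v 0)) (by
        intro f hf
        obtain ⟨g, hg, rfl⟩ := List.mem_map.1 hf
        exact T2.dio_con3 (DioFn.var 1) (DioFn.var 0) ((hA g hg).tl.tl.div (DioFn.var 0)))
    refine h.congr (fun v => ?_)
    simp only [List.map_map]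
    rfl

theorem dio_cpk (D : Fld p K) {L : List ((ℕ → ℚ) → K)} (hL : ∀ f ∈ L, FnK D.bas f) :
    Dio (fun v => CPK D (L.map (fun f => f v))) := by
  unfold CPK
  refine exK (b := D.bas) (S := fun w v => (∃ k, D.bas.repr w k = 1) ∧
    CPp p ((L.map (fun f => f v)).flatMap (fun x => List.ofFn (fun i => D.bas.repr (x * w) i)))) ?_
  refine Dio.and (dio_ex_fin (fun k => Dio.eq (fnK_kv 0 k) (fn_rat 1))) ?_
  have h := dio_cpp (p := p) (A := L.flatMap (fun f => List.ofFn (fun i : Fin (2 * D.m) =>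
    fun v : ℕ → ℚ => D.bas.repr (f (dr (2 * D.m) v) * kv D.bas 0 v) i))) (by
      intro g hg
      rw [List.mem_flatMap] at hg
      obtain ⟨f, hf, hg⟩ := hg
      rw [List.mem_ofFn] at hg
      obtain ⟨i, rfl⟩ := hg
      exact (((hL f hf).dr _).mul (fnK_kv 0)) i)
  refine h.congr (fun v => ?_)
  simp only [List.map_flatMap, List.flatMap_map, List.map_ofFn]
  rfl

end Vale.Agent.P027.T3
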