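import Vale.Agent.P027.R3.H250.P0

set_option linter.all false

/-! Residue fields of the ring of `p`-integers. -/

namespace Vale.Agent.P027.T3

open Vale.Agent.P027 Module IsDedekindDomain NumberField

variable {p : ℕ} [hpF : Fact p.Prime] {K : Type} [Field K] [NumberField K]

theorem finrank_eq (D : Fld p K) : Module.finrank ℚ K = 2 * D.m := by
  rw [Module.finrank_eq_card_basis D.bas, Fintype.card_fin]

theorem frob_int (D : Fld p K) {q : ℕ} (hq : q.Prime) {𝔮 : Ideal (𝓞 K)} (h𝔮 : 𝔮.IsPrime)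
    (hq𝔮 : (q : 𝓞 K) ∈ 𝔮) :
    ∃ f, 1 ≤ f ∧ f ≤ 2 * D.m ∧ ∀ x : 𝓞 K, x ^ (q ^ f) - x ∈ 𝔮 := by
  have hq0 : (q : 𝓞 K) ≠ 0 := by exact_mod_cast hq.ne_zero
  have hbot : 𝔮 ≠ ⊥ := by
    rintro rfl
    exact hq0 (by simpa using hq𝔮)
  have hmax : 𝔮.IsMaximal := h𝔮.isMaximal hbot
  have h1 : Ideal.absNorm 𝔮 ∣ q ^ (2 * D.m) := by
    have h2 : Ideal.span {(q : 𝓞 K)} ≤ 𝔮 := (Ideal.span_singleton_le_iff_mem _).2 hq𝔮
    have h3 := Ideal.absNorm_dvd_absNorm_of_le h2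
    have h4 : Ideal.absNorm (Ideal.span {(q : 𝓞 K)}) = q ^ (2 * D.m) := by
      rw [Ideal.absNorm_span_singleton]
      have : Algebra.norm ℤ (q : 𝓞 K) = (q : ℤ) ^ (2 * D.m) := by
        have h5 := Algebra.norm_algebraMap (S := 𝓞 K) (q : ℤ)
        rw [RingOfIntegers.rank, finrank_eq D] at h5
        simpa using h5
      rw [this]
      simp [Int.natAbs_pow]
    rwa [h4] at h3
  obtain ⟨f, hf, hf'⟩ := (Nat.dvd_prime_pow hq).1 h1
  refine ⟨f, ?_, hf, fun x => ?_⟩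
  · rcases Nat.eq_zero_or_pos f with h0 | h0
    · rw [h0, pow_zero, Ideal.absNorm_eq_one_iff] at hf'
      exact absurd hf' h𝔮.ne_top
    · exact h0
  · letI := Ideal.Quotient.field 𝔮
    haveI : Finite (𝓞 K ⧸ 𝔮) := Ideal.finiteQuotientOfFreeOfNeBot 𝔮 hbot
    haveI := Fintype.ofFinite (𝓞 K ⧸ 𝔮)
    have h5 := FiniteField.pow_card (Ideal.Quotient.mk 𝔮 x)
    rw [Fintype.card_eq_nat_card] at h5
    have h6 : Nat.card (𝓞 K ⧸ 𝔮) = q ^ f := by
      rw [← hf', Ideal.absNorm_apply, Submodule.cardQuot_apply]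
    rw [h6, ← map_pow] at h5
    exact Ideal.Quotient.eq.1 h5

/-- residue fields -/
theorem frob' (D : Fld p K) {q : ℕ} (hq : q.Prime) (hqp : q ≠ p)
    {Q : Ideal (OutRing p K)} (hQ : Q.IsPrime) (hqQ : (q : OutRing p K) ∈ Q) :
    ∃ f, 1 ≤ f ∧ f ≤ 2 * D.m ∧ ∀ x : OutRing p K, x ^ (q ^ f) - x ∈ Q := by
  let ι : 𝓞 K →+* OutRing p K :=
    { toFun := fun x => ⟨x, Out.of_integral x.2⟩
      map_one' := rfl
      map_mul' := fun _ _ => rfl
      map_zero' := rfl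
      map_add' := fun _ _ => rfl }
  obtain ⟨f, hf1, hf2, hf⟩ := frob_int D hq (𝔮 := Q.comap ι) (Ideal.comap_isPrime ι Q) (by
    rw [Ideal.mem_comap, map_natCast]; exact hqQ)
  refine ⟨f, hf1, hf2, fun x => ?_⟩
  obtain ⟨t, ht⟩ := x.2
  obtain ⟨z, hz⟩ : ∃ z : 𝓞 K, (z : K) = (p : K) ^ t * (x : K) := ⟨⟨_, ht⟩, rfl⟩
  have e : ι z = (p : OutRing p K) ^ t * x := by
    apply Subtype.ext
    show (z : K) = _
    rw [hz]
    push_cast
    rfl
  have h1 : (ι z) ^ (q ^ f) - ι z ∈ Q := by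
    have := hf z
    rw [Ideal.mem_comap, map_sub, map_pow] at this
    exact this
  have h2 : ((p : OutRing p K)) ^ (q ^ f) - p ∈ Q := by
    have := hf (p : 𝓞 K)
    rw [Ideal.mem_comap, map_sub, map_pow, map_natCast] at this
    exact this
  -- pass to the quotient
  have hpQ : (p : OutRing p K) ∉ Q := by
    intro hp
    have hco : IsCoprime (p : ℤ) (q : ℤ) :=
      Nat.isCoprime_iff_coprime.2 ((Nat.coprime_primes hpF.out hq).2 hqp.symm)
    obtain ⟨a, b, hab⟩ := hco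
    apply hQ.ne_top
    rw [Ideal.eq_top_iff_one]
    have : (1 : OutRing p K) = (a : OutRing p K) * p + (b : OutRing p K) * q := by
      exact_mod_cast hab.symm
    rw [this]
    exact Q.add_mem (Q.mul_mem_left _ hp) (Q.mul_mem_left _ hqQ)
  have key : (p : OutRing p K) ^ t * (x ^ (q ^ f) - x) ∈ Q := by
    rw [← Ideal.Quotient.eq_zero_iff_mem] at h1 h2 ⊢
    rw [e] at h1
    simp only [map_sub, map_mul, map_pow] at h1 h2 ⊢
    rw [mul_pow, ← pow_mul, mul_comm t, pow_mul, sub_eq_zero.1 h2] at h1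
    rw [mul_sub]
    exact h1
  rcases hQ.mem_or_mem key with h | h
  · exact absurd (hQ.mem_of_pow_mem _ h) hpQ
  · exact h

end Vale.Agent.P027.T3
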