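import Vale.Agent.P027.R3.H250.Defs

set_option linter.all false

/-! Denominators. -/

namespace Vale.Agent.P027.T3

open Vale.Agent.P027 Module IsDedekindDomain NumberField

variable {p : ℕ} [hpF : Fact p.Prime] {K : Type} [Field K] [NumberField K]

theorem isIntegral_natCast_K (n : ℕ) : IsIntegral ℤ (n : K) := by
  have := isIntegral_algebraMap (R := ℤ) (A := K) (x := (n : ℤ))
  simpa using this

theorem isIntegral_intCast_K (n : ℤ) : IsIntegral ℤ (n : K) := by
  have := isIntegral_algebraMap (R := ℤ) (A := K) (x := n)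
  simpa using this

/-- the ideal of denominators -/
def denI (x : K) : Ideal ℤ where
  carrier := {n | IsIntegral ℤ ((n : K) * x)}
  add_mem' := by
    intro a b ha hb
    have : ((a + b : ℤ) : K) * x = (a : K) * x + (b : K) * x := by push_cast; ring
    simp only [Set.mem_ofPred_eq] at *
    rw [this]
    exact ha.add hb
  zero_mem' := by
    simp only [Set.mem_ofPred_eq, Int.cast_zero, zero_mul]
    exact isIntegral_zero
  smul_mem' := by
    intro c a ha
    have : ((c • a : ℤ) : K) * x = (c : K) * ((a : K) * x) := by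
      rw [smul_eq_mul]; push_cast; ring
    simp only [Set.mem_ofPred_eq] at *
    rw [this]
    exact (isIntegral_intCast_K c).mul ha

theorem mem_denI {x : K} {n : ℤ} : n ∈ denI x ↔ IsIntegral ℤ ((n : K) * x) := Iff.rfl

theorem exists_den (x : K) : ∃ d : ℤ, d ≠ 0 ∧ IsIntegral ℤ ((d : K) * x) := by
  have h : IsAlgebraic ℤ x := by
    have : IsAlgebraic ℚ x := Algebra.IsAlgebraic.isAlgebraic x
    exact (IsFractionRing.isAlgebraic_iff ℤ ℚ K).2 this
  obtain ⟨d, hd, hi⟩ := h.exists_integral_multiple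
  refine ⟨d, hd, ?_⟩
  rw [zsmul_eq_mul] at hi
  exact hi

theorem out_iff {x : K} : Out p x ↔ ∀ r : ℕ, r.Prime → r ≠ p → Pint r x := by
  have hp : p.Prime := Fact.out
  constructor
  · rintro ⟨k, hk⟩ r hr hrp
    refine ⟨p ^ k, ?_, by push_cast; exact hk⟩
    intro h
    exact hrp ((Nat.prime_dvd_prime_iff_eq hr hp).1 (hr.dvd_of_dvd_pow h))
  · intro h
    obtain ⟨d, hd⟩ := (IsPrincipalIdealRing.principal (denI x)).principal
    have hdx : ∀ n : ℤ, IsIntegral ℤ ((n : K) * x) ↔ d ∣ n := by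
      intro n
      rw [← mem_denI, hd]
      exact Ideal.mem_span_singleton
    have hd0 : d ≠ 0 := by
      rintro rfl
      obtain ⟨n, hn, hi⟩ := exists_den x
      exact hn (zero_dvd_iff.1 ((hdx n).1 hi))
    obtain ⟨k, hk⟩ : ∃ k, d.natAbs = p ^ k := by
      refine ⟨d.natAbs.primeFactorsList.length, Nat.eq_prime_pow_of_unique_prime_dvd
        (Int.natAbs_ne_zero.2 hd0) (fun {r} hr hrd => ?_)⟩
      by_contra hrp
      obtain ⟨s, hs, hi⟩ := h r hr hrp
      have h1 := (hdx s).1 (by exact_mod_cast hi)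
      have h2 : (r : ℤ) ∣ s := (Int.natCast_dvd.2 hrd).trans h1
      exact hs (by exact_mod_cast h2)
    refine ⟨k, ?_⟩
    have h1 : IsIntegral ℤ (((p ^ k : ℕ) : ℤ) * x : K) := by
      rw [hdx, ← hk]
      exact Int.dvd_natAbs.2 dvd_rfl
    push_cast at h1
    exact h1

theorem Pint.add {r : ℕ} (hr : r.Prime) {x y : K} (hx : Pint r x) (hy : Pint r y) :
    Pint r (x + y) := by
  obtain ⟨s, hs, hi⟩ := hx
  obtain ⟨t, ht, hj⟩ := hy
  refine ⟨s * t, fun h => ((Nat.Prime.dvd_mul hr).1 h).elim hs ht, ?_⟩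
  have : ((s * t : ℕ) : K) * (x + y) = (t : K) * ((s : K) * x) + (s : K) * ((t : K) * y) := by
    push_cast; ring
  rw [this]
  exact ((isIntegral_natCast_K t).mul hi).add ((isIntegral_natCast_K s).mul hj)

theorem Pint.mul {r : ℕ} (hr : r.Prime) {x y : K} (hx : Pint r x) (hy : Pint r y) :
    Pint r (x * y) := by
  obtain ⟨s, hs, hi⟩ := hx
  obtain ⟨t, ht, hj⟩ := hy
  refine ⟨s * t, fun h => ((Nat.Prime.dvd_mul hr).1 h).elim hs ht, ?_⟩
  have : ((s * t : ℕ) : K) * (x * y) = ((s : K) * x) * ((t : K) * y) := by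
    push_cast; ring
  rw [this]
  exact hi.mul hj

theorem Pint.of_integral {r : ℕ} (hr : r.Prime) {x : K} (hx : IsIntegral ℤ x) : Pint r x :=
  ⟨1, hr.one_lt.ne' ∘ Nat.dvd_one.1, by simpa using hx⟩

theorem Pint.neg {r : ℕ} {x : K} (hx : Pint r x) : Pint r (-x) := by
  obtain ⟨s, hs, hi⟩ := hx
  exact ⟨s, hs, by rw [mul_neg]; exact hi.neg⟩

theorem Pint.map {r : ℕ} {x : K} (hx : Pint r x) (σ : K ≃ₐ[ℚ] K) : Pint r (σ x) := by
  obtain ⟨s, hs, hi⟩ := hx
  refine ⟨s, hs, ?_⟩
  have : (s : K) * σ x = σ ((s : K) * x) := by simp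
  rw [this]
  exact hi.map (σ.toAlgHom.restrictScalars ℤ)

theorem Out.mul {x y : K} (hx : Out p x) (hy : Out p y) : Out p (x * y) := by
  obtain ⟨k, hk⟩ := hx
  obtain ⟨l, hl⟩ := hy
  refine ⟨k + l, ?_⟩
  have : (p : K) ^ (k + l) * (x * y) = ((p : K) ^ k * x) * ((p : K) ^ l * y) := by
    rw [pow_add]; ring
  rw [this]
  exact hk.mul hl

theorem Out.add {x y : K} (hx : Out p x) (hy : Out p y) : Out p (x + y) := by
  obtain ⟨k, hk⟩ := hx
  obtain ⟨l, hl⟩ := hy
  refine ⟨k + l, ?_⟩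
  have : (p : K) ^ (k + l) * (x + y) = (p : K) ^ l * ((p : K) ^ k * x) +
      (p : K) ^ k * ((p : K) ^ l * y) := by
    rw [pow_add]; ring
  rw [this]
  exact (((isIntegral_natCast_K p).pow l).mul hk).add (((isIntegral_natCast_K p).pow k).mul hl)

theorem Out.of_integral {x : K} (hx : IsIntegral ℤ x) : Out p x := ⟨0, by simpa using hx⟩

theorem Out.neg {x : K} (hx : Out p x) : Out p (-x) := by
  obtain ⟨k, hk⟩ := hx
  exact ⟨k, by rw [mul_neg]; exact hk.neg⟩

theorem Out.map {x : K} (hx : Out p x) (σ : K ≃ₐ[ℚ] K) : Out p (σ x) := by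
  obtain ⟨k, hi⟩ := hx
  refine ⟨k, ?_⟩
  have : (p : K) ^ k * σ x = σ ((p : K) ^ k * x) := by simp
  rw [this]
  exact hi.map (σ.toAlgHom.restrictScalars ℤ)

variable (p K) in
/-- the ring of `p`-integers -/
def OutRing : Subring K where
  carrier := {x | Out p x}
  mul_mem' := fun ha hb => Out.mul ha hb
  one_mem' := Out.of_integral isIntegral_one
  add_mem' := fun ha hb => Out.add ha hb
  zero_mem' := Out.of_integral isIntegral_zero
  neg_mem' := fun ha => Out.neg ha

theorem mem_OutRing {x : K} : x ∈ OutRing p K ↔ Out p x := Iff.rfl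

theorem Out.pow {x : K} (hx : Out p x) (n : ℕ) : Out p (x ^ n) :=
  (OutRing p K).pow_mem hx n

theorem Out.zpow {x : K} (hx : Out p x) (hx' : Out p x⁻¹) (n : ℤ) : Out p (x ^ n) := by
  rcases n with n | n
  · simpa using hx.pow n
  · rw [zpow_negSucc, ← inv_pow]
    exact hx'.pow _

theorem Out.sub {x y : K} (hx : Out p x) (hy : Out p y) : Out p (x - y) :=
  (OutRing p K).sub_mem hx hy

theorem Out.natCast (n : ℕ) : Out p (n : K) := Out.of_integral (isIntegral_natCast_K n)

theorem Out.intCast (n : ℤ) : Out p (n : K) := Out.of_integral (isIntegral_intCast_K n)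

theorem Out.inv_p : Out p ((p : K)⁻¹) := by
  have hp : (p : K) ≠ 0 := by
    have : p ≠ 0 := (Fact.out : p.Prime).ne_zero
    exact_mod_cast this
  exact ⟨1, by rw [pow_one, mul_inv_cancel₀ hp]; exact isIntegral_one⟩

/-- rational numbers with denominator prime to `r` -/
theorem val_nonneg_iff {r : ℕ} (hr : r.Prime) (x : ℚ) : 0 ≤ padicValRat r x ↔ ¬ r ∣ x.den := by
  have := Fact.mk hr
  constructor
  · exact T2.den_not_dvd hr
  · intro h
    rw [padicValRat_def, padicValNat.eq_zero_of_not_dvd h]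
    simp

theorem pint_iff (D : Fld p K) {r : ℕ} (hr : r.Prime) {x : K} :
    Pint r x ↔ ∀ i, 0 ≤ padicValRat r (D.bas.repr x i) := by
  have hcoord : ∀ (s : ℕ) (i), D.bas.repr ((s : K) * x) i = s * D.bas.repr x i := by
    intro s i
    have : (s : K) * x = (s : ℚ) • x := by
      rw [Algebra.smul_def]; simp
    rw [this, map_smul]
    simp
  constructor
  · rintro ⟨s, hs, hi⟩ i
    obtain ⟨z, hz⟩ := (D.int _).1 hi i
    rw [hcoord] at hz
    rw [val_nonneg_iff hr]
    intro hd
    have hs0 : s ≠ 0 := by rintro rfl; exact hs (dvd_zero _)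
    have h1 : D.bas.repr x i = (z : ℚ) / ((s : ℤ) : ℚ) := by
      rw [eq_div_iff (by exact_mod_cast hs0)]
      push_cast
      rw [← hz]; ring
    have h2 := Rat.den_dvd z s
    rw [Rat.divInt_eq_div, ← h1] at h2
    exact hs (hd.trans (by exact_mod_cast h2))
  · intro h
    refine ⟨∏ i, (D.bas.repr x i).den, ?_, ?_⟩
    · intro hd
      obtain ⟨i, -, hi⟩ := (hr.prime.dvd_finsetProd_iff _).1 hd
      exact (val_nonneg_iff hr _).1 (h i) hi
    · rw [D.int]
      intro i
      rw [hcoord]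
      rw [← Finset.mul_prod_erase Finset.univ _ (Finset.mem_univ i)]
      refine ⟨(∏ j ∈ Finset.univ.erase i, (D.bas.repr x j).den : ℕ) * (D.bas.repr x i).num, ?_⟩
      have h1 := Rat.den_mul_eq_num (D.bas.repr x i)
      push_cast
      rw [← h1]
      ring

end Vale.Agent.P027.T3
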