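import Vale.Agent.P027.R3.H250.P2

set_option linter.all false

/-! Construction of the base. -/

namespace Vale.Agent.P027.T3

open Vale.Agent.P027 Module IsDedekindDomain NumberField

variable {p : ℕ} [hpF : Fact p.Prime] {K : Type} [Field K] [NumberField K]

/-- norms of conjugates -/
noncomputable def nn (D : Fld p K) (x : K) (i : ℕ) : ℝ := ‖D.φ ((D.σ ^ i) x)‖

theorem nn_mul (D : Fld p K) (x y : K) (i : ℕ) : nn D (x * y) i = nn D x i * nn D y i := by
  simp only [nn, map_mul, norm_mul]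

theorem nn_pow (D : Fld p K) (x : K) (k i : ℕ) : nn D (x ^ k) i = nn D x i ^ k := by
  simp only [nn, map_pow, norm_pow]

theorem nn_inv (D : Fld p K) (x : K) (i : ℕ) : nn D x⁻¹ i = (nn D x i)⁻¹ := by
  simp only [nn, map_inv₀, norm_inv]

theorem nn_sig (D : Fld p K) (x : K) (k i : ℕ) : nn D ((D.σ ^ k) x) i = nn D x (i + k) := by
  simp only [nn]
  rw [← AlgEquiv.mul_apply, ← pow_add]

theorem nn_per (D : Fld p K) (x : K) (i k : ℕ) : nn D x (i + 2 * D.m * k) = nn D x i := by
  simp only [nn]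
  rw [pow_add, pow_mul, D.ord, one_pow, mul_one]

theorem nn_prod (D : Fld p K) {ι : Type} (s : Finset ι) (f : ι → K) (i : ℕ) :
    nn D (∏ t ∈ s, f t) i = ∏ t ∈ s, nn D (f t) i := by
  simp only [nn, map_prod, norm_prod]

theorem nn_one (D : Fld p K) (i : ℕ) : nn D 1 i = 1 := by
  simp [nn]

/-- the vector of valuations -/
def wv (k : ℕ) : ℤ := if k % 6 = 0 then 1 else if k % 6 = 2 then -1 else if k % 6 = 3 then -1 else
  if k % 6 = 5 then 1 else 0

theorem tor_val {D : Fld p K} {s : ℕ} (hs : D.m = 3 * s) {α : K} (hα : Tor D s α) (k : ℕ)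
    {r : ℕ} (hr : r < s) :
    nn D α (k * s + r) = if r = 0 then (nn D α 0) ^ wv k else 1 := by
  have hne : α ≠ 0 := by
    rintro rfl
    simpa using hα.2.1
  have h0 : nn D α 0 ≠ 0 := by
    simp only [nn]
    simpa using hne
  -- relations
  have hrel1 : ∀ i, nn D α i * nn D α (i + 3 * s) = 1 := by
    intro i
    have := congrArg (fun x => nn D x i) hα.2.1
    simp only [nn_mul, nn_sig, nn_one] at this
    exact this
  have hrel2 : ∀ i, nn D α i * nn D α (i + 2 * s) * nn D α (i + 4 * s) = 1 := by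
    intro i
    have := congrArg (fun x => nn D x i) hα.2.2.1
    simp only [nn_mul, nn_sig, nn_one] at this
    exact this
  have hoth : ∀ i, i < 6 * s → i ≠ 0 → i ≠ 2 * s → i ≠ 3 * s → i ≠ 5 * s → nn D α i = 1 := by
    intro i hi h1 h2 h3 h4
    exact hα.2.2.2 i (by omega) h1 h2 h3 h4
  have hper : nn D α (k * s + r) = nn D α ((k % 6) * s + r) := by
    have e : k * s + r = ((k % 6) * s + r) + 2 * D.m * (k / 6) := by
      conv_lhs => rw [← Nat.mod_add_div k 6]
      rw [hs]; ring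
    rw [e, nn_per]
  have hw : wv k = wv (k % 6) := by simp [wv]
  rw [hper, hw]
  have hk : k % 6 < 6 := Nat.mod_lt _ (by norm_num)
  generalize k % 6 = j at hk
  by_cases hr0 : r = 0
  · subst hr0
    have h4 : nn D α (4 * s) = 1 := hoth _ (by omega) (by omega) (by omega) (by omega) (by omega)
    have h1 : nn D α (1 * s) = 1 := hoth _ (by omega) (by omega) (by omega) (by omega) (by omega)
    have h2 : nn D α (2 * s) = (nn D α 0)⁻¹ := by
      have := hrel2 0
      rw [zero_add, zero_add, h4, mul_one] at this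
      exact eq_inv_of_mul_eq_one_right this
    have h3 : nn D α (3 * s) = (nn D α 0)⁻¹ := by
      have := hrel1 0
      rw [zero_add] at this
      exact eq_inv_of_mul_eq_one_right this
    have h5 : nn D α (5 * s) = nn D α 0 := by
      have := hrel1 (2 * s)
      rw [h2, show 2 * s + 3 * s = 5 * s by ring] at this
      rw [inv_mul_eq_one₀ h0] at this
      exact this.symm
    interval_cases j
    · simp [wv]
    · simpa [wv] using h1
    · simpa [wv] using h2
    · simpa [wv] using h3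
    · simpa [wv] using h4
    · simpa [wv] using h5
  · rw [if_neg hr0]
    interval_cases j <;> exact hoth _ (by omega) (by omega) (by omega) (by omega) (by omega)

/-- the group ring element -/
def EE (D : Fld p K) (s : ℕ) (z : K) : K :=
  z ^ 3 * ((D.σ ^ (5 * s)) z ^ 2)⁻¹ *
    ∏ t ∈ Finset.Ico 1 s, (D.σ ^ (6 * s - t)) (z ^ 2 * (D.σ ^ (5 * s)) z ^ 2)

theorem EE_zpow (D : Fld p K) (s : ℕ) (z : K) (j : ℤ) : EE D s (z ^ j) = (EE D s z) ^ j := by
  unfold EE
  rw [mul_zpow, mul_zpow, ← Finset.prod_zpow]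
  have e : ∀ (x : K) (k : ℕ), (x ^ j) ^ k = (x ^ k) ^ j := by
    intro x k
    rw [← zpow_natCast, ← zpow_natCast, ← zpow_mul, ← zpow_mul, mul_comm]
  simp only [map_zpow₀, map_mul, map_pow, e, inv_zpow', mul_zpow]
  rw [zpow_neg]

theorem nn_EE_zero {D : Fld p K} {s : ℕ} (hs : D.m = 3 * s) {α : K} (hα : Tor D s α) (k : ℕ) :
    nn D (EE D s α) (k * s) = (nn D α 0) ^ (3 * wv k - 2 * wv (k + 5)) := by
  have hne : α ≠ 0 := by
    rintro rfl
    simpa using hα.2.1
  have h0 : nn D α 0 ≠ 0 := by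
    simp only [nn]
    simpa using hne
  have hs0 : 0 < s := by
    have := D.odd.pos
    omega
  have hv : ∀ k, nn D α (k * s) = nn D α 0 ^ wv k := by
    intro k
    have := tor_val hs hα k (r := 0) hs0
    simpa using this
  unfold EE
  rw [nn_mul, nn_mul, nn_inv, nn_pow, nn_pow, nn_sig, nn_prod, Finset.prod_eq_one, mul_one]
  · have e : k * s + 5 * s = (k + 5) * s := by ring
    rw [e, hv, hv, ← zpow_natCast, ← zpow_natCast, ← zpow_mul, ← zpow_mul, ← zpow_neg,
      ← zpow_add₀ h0]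
    congr 1
    push_cast
    ring
  · intro t ht
    rw [Finset.mem_Ico] at ht
    rw [nn_sig, nn_mul, nn_pow, nn_pow, nn_sig]
    have e1 : k * s + (6 * s - t) = (k + 5) * s + (s - t) := by
      have : (k + 5) * s = k * s + 5 * s := by ring
      omega
    have e2 : k * s + (6 * s - t) + 5 * s = (k + 10) * s + (s - t) := by
      have : (k + 10) * s = k * s + 10 * s := by ring
      omega
    rw [e2, e1, tor_val hs hα _ (by omega), tor_val hs hα _ (by omega), if_neg (by omega),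
      if_neg (by omega)]
    norm_num

theorem nn_EE_pos {D : Fld p K} {s : ℕ} (hs : D.m = 3 * s) {α : K} (hα : Tor D s α) (k : ℕ)
    {r : ℕ} (hr0 : 0 < r) (hr : r < s) :
    nn D (EE D s α) (k * s + r) = (nn D α 0) ^ (2 * wv (k + 6) + 2 * wv (k + 11)) := by
  have hne : α ≠ 0 := by
    rintro rfl
    simpa using hα.2.1
  have h0 : nn D α 0 ≠ 0 := by
    simp only [nn]
    simpa using hne
  have hv : ∀ k, nn D α (k * s) = nn D α 0 ^ wv k := by
    intro k
    have := tor_val hs hα k (r := 0) (by omega)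
    simpa using this
  unfold EE
  have e0 : k * s + r + 5 * s = (k + 5) * s + r := by ring
  rw [nn_mul, nn_mul, nn_inv, nn_pow, nn_pow, nn_sig, nn_prod, e0, tor_val hs hα _ hr,
    tor_val hs hα _ hr, if_neg (by omega), if_neg (by omega),
    Finset.prod_eq_single_of_mem r (Finset.mem_Ico.2 ⟨hr0, hr⟩)]
  · rw [nn_sig, nn_mul, nn_pow, nn_pow, nn_sig]
    have e1 : k * s + r + (6 * s - r) = (k + 6) * s := by
      have : (k + 6) * s = k * s + 6 * s := by ring
      omega
    have e2 : k * s + r + (6 * s - r) + 5 * s = (k + 11) * s := by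
      have : (k + 11) * s = k * s + 11 * s := by ring
      omega
    rw [e2, e1, hv, hv, ← zpow_natCast, ← zpow_natCast, ← zpow_natCast, ← zpow_natCast,
      ← zpow_mul, ← zpow_mul, one_zpow, one_zpow, inv_one, one_mul, one_mul, ← zpow_add₀ h0]
    congr 1
    push_cast
    ring
  · intro t ht htr
    rw [Finset.mem_Ico] at ht
    rw [nn_sig, nn_mul, nn_pow, nn_pow, nn_sig]
    rcases lt_or_gt_of_ne htr with h | h
    · have e1 : k * s + r + (6 * s - t) = (k + 6) * s + (r - t) := by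
        have : (k + 6) * s = k * s + 6 * s := by ring
        omega
      have e2 : k * s + r + (6 * s - t) + 5 * s = (k + 11) * s + (r - t) := by
        have : (k + 11) * s = k * s + 11 * s := by ring
        omega
      rw [e2, e1, tor_val hs hα _ (by omega), tor_val hs hα _ (by omega), if_neg (by omega),
        if_neg (by omega)]
      norm_num
    · have e1 : k * s + r + (6 * s - t) = (k + 5) * s + (s + r - t) := by
        have : (k + 5) * s = k * s + 5 * s := by ring
        omega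
      have e2 : k * s + r + (6 * s - t) + 5 * s = (k + 10) * s + (s + r - t) := by
        have : (k + 10) * s = k * s + 10 * s := by ring
        omega
      rw [e2, e1, tor_val hs hα _ (by omega), tor_val hs hα _ (by omega), if_neg (by omega),
        if_neg (by omega)]
      norm_num

/-- the exponents: one at the places `0`, `3 s`, at least two elsewhere -/
theorem nn_EE {D : Fld p K} {s : ℕ} (hs : D.m = 3 * s) {α : K} (hα : Tor D s α) :
    nn D (EE D s α) 0 = nn D α 0 ∧ ∀ i, i < 2 * D.m → i ≠ 0 → i ≠ D.m →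
      ∃ e : ℤ, (2 ≤ e ∨ e ≤ -2) ∧ nn D (EE D s α) i = nn D α 0 ^ e := by
  have hs0 : 0 < s := by
    have := D.odd.pos
    omega
  constructor
  · have := nn_EE_zero hs hα 0
    rw [zero_mul] at this
    rw [this]
    simp [wv]
  · intro i hi hi0 him
    obtain ⟨k, r, hr, hk, rfl⟩ : ∃ k r, r < s ∧ k < 6 ∧ i = k * s + r :=
      ⟨i / s, i % s, Nat.mod_lt _ hs0, by rw [Nat.div_lt_iff_lt_mul hs0]; omega,
        by rw [mul_comm, Nat.div_add_mod]⟩
    rcases Nat.eq_zero_or_pos r with h | h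
    · subst h
      rw [add_zero, nn_EE_zero hs hα k]
      refine ⟨_, ?_, rfl⟩
      interval_cases k
      · omega
      · simp [wv]
      · simp [wv]
      · omega
      · simp [wv]
      · simp [wv]
    · rw [nn_EE_pos hs hα k h hr]
      refine ⟨_, ?_, rfl⟩
      interval_cases k <;> simp [wv]

/-- powers are one modulo twelve -/
theorem exists_pow_mod12 (hp : p % 12 = 7) {x : K} (hx : Out p x) (hx' : Out p x⁻¹) (h0 : x ≠ 0) :
    ∃ M : ℕ, 1 ≤ M ∧ ∃ δ, Out p δ ∧ x ^ M = 1 + 12 * δ := by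
  have hp0 : (p : K) ≠ 0 := by exact_mod_cast hpF.out.ne_zero
  obtain ⟨k, hk⟩ := hx
  obtain ⟨l, hl⟩ := hx'
  obtain ⟨b, hb⟩ : ∃ b : 𝓞 K, (b : K) = (p : K) ^ k * x := ⟨⟨_, hk⟩, rfl⟩
  obtain ⟨c, hc⟩ : ∃ c : 𝓞 K, (c : K) = (p : K) ^ l * x⁻¹ := ⟨⟨_, hl⟩, rfl⟩
  have hbc : b * c = (p : 𝓞 K) ^ (k + l) := by
    have h1 : (b : K) * (c : K) = (p : K) ^ (k + l) := by
      rw [hb, hc, pow_add]
      field_simp
    apply RingOfIntegers.ext
    simpa using h1
  obtain ⟨I, hI⟩ : ∃ I : Ideal (𝓞 K), I = Ideal.span {(12 : 𝓞 K)} := ⟨_, rfl⟩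
  have hIbot : I ≠ ⊥ := by
    rw [hI, Ne, Ideal.span_singleton_eq_bot]
    norm_num
  haveI : Finite (𝓞 K ⧸ I) := Ideal.finiteQuotientOfFreeOfNeBot I hIbot
  have h12 : (12 : 𝓞 K ⧸ I) = 0 := by
    have : Ideal.Quotient.mk I 12 = 0 := by
      rw [Ideal.Quotient.eq_zero_iff_mem, hI]
      exact Ideal.mem_span_singleton_self _
    rw [← this]
    exact (map_ofNat (Ideal.Quotient.mk I) 12).symm
  have hpu : IsUnit (p : 𝓞 K ⧸ I) := by
    have : p = 7 + 12 * (p / 12) := by omega
    have e : (p : 𝓞 K ⧸ I) = 7 := by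
      rw [this]; push_cast; rw [h12]; ring
    rw [e]
    refine IsUnit.of_mul_eq_one 7 ?_
    have : (7 : 𝓞 K ⧸ I) * 7 = 1 + 12 * 4 := by norm_num
    rw [this, h12]; ring
  have hbu : IsUnit (Ideal.Quotient.mk I b) := by
    have h1 := congrArg (Ideal.Quotient.mk I) hbc
    rw [map_mul, map_pow, map_natCast] at h1
    have h2 := hpu.pow (k + l)
    rw [← h1] at h2
    exact isUnit_of_mul_isUnit_left h2
  obtain ⟨M, hM⟩ : ∃ M : ℕ, M = Nat.card (𝓞 K ⧸ I)ˣ := ⟨_, rfl⟩
  haveI : Finite (𝓞 K ⧸ I)ˣ := inferInstance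
  have hM1 : 1 ≤ M := by rw [hM]; exact Nat.card_pos
  have hpowu : ∀ u : 𝓞 K ⧸ I, IsUnit u → u ^ M = 1 := by
    rintro _ ⟨u, rfl⟩
    rw [hM]
    have := pow_card_eq_one' (x := u)
    have h2 := congrArg Units.val this
    rwa [Units.val_pow_eq_pow_val, Units.val_one] at h2
  have h3 : b ^ M - (p : 𝓞 K) ^ (k * M) ∈ I := by
    rw [← Ideal.Quotient.eq_zero_iff_mem, map_sub, map_pow, map_pow, map_natCast, mul_comm k,
      pow_mul, hpowu _ hbu, hpowu _ hpu, one_pow, sub_self]
  rw [hI, Ideal.mem_span_singleton] at h3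
  obtain ⟨u, hu⟩ := h3
  refine ⟨M, hM1, (u : K) / p ^ (k * M), ⟨k * M, ?_⟩, ?_⟩
  · rw [mul_div_cancel₀ _ (pow_ne_zero _ hp0)]
    exact u.2
  · have h4 : (b : K) ^ M - (p : K) ^ (k * M) = 12 * (u : K) := by
      have := congrArg (fun z : 𝓞 K => algebraMap (𝓞 K) K z) hu
      simp only [map_sub, map_pow, map_mul, map_natCast, map_ofNat] at this
      exact this
    rw [hb, mul_pow, ← pow_mul] at h4
    have h5 : (p : K) ^ (k * M) ≠ 0 := pow_ne_zero _ hp0
    field_simp
    linear_combination h4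

theorem out_prod {ι : Type} (s : Finset ι) {f : ι → K} (h : ∀ i ∈ s, Out p (f i)) :
    Out p (∏ i ∈ s, f i) :=
  (OutRing p K).prod_mem h

/-- the base, as the value of a multiplicative Diophantine function -/
theorem exists_base' (D : Fld p K) (hp : p % 12 = 7) {s : ℕ} (hs : D.m = 3 * s) {α : K}
    (hα : Tor D s α) (hα1 : ‖D.φ α‖ < 1) : ∃ (B : K → K) (V : ℕ),
      (∀ (z : K) (j : ℤ), B (z ^ j) = B z ^ j) ∧
      (∀ {f : (ℕ → ℚ) → K}, FnK D.bas f → FnK D.bas (fun v => B (f v))) ∧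
      Base D (B α) V := by
  have hne : α ≠ 0 := by
    rintro rfl
    simpa using hα.2.1
  have hp' := hpF.out
  have hs0 : 0 < s := by
    have := D.odd.pos
    omega
  have hc0 : 0 < nn D α 0 := by
    simp only [nn]
    simpa using hne
  have hinv : (D.σ ^ (3 * s)) α = α⁻¹ := eq_inv_of_mul_eq_one_right hα.2.1
  have hαinv : Out p α⁻¹ := by
    rw [← hinv]
    exact hα.1.map _
  -- the element before the power
  obtain ⟨x, hx⟩ : ∃ x, x = EE D s α := ⟨_, rfl⟩
  have hout : ∀ z : K, Out p z → Out p z⁻¹ → Out p (EE D s z) := by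
    intro z hz hz'
    unfold EE
    refine Out.mul (Out.mul (hz.pow _) ?_) (out_prod _ (fun t _ => ?_))
    · rw [← map_pow, ← map_inv₀, ← inv_pow]
      exact (hz'.pow _).map _
    · exact ((hz.pow _).mul ((hz.map _).pow _)).map _
  have hEinv : EE D s α⁻¹ = (EE D s α)⁻¹ := by
    have := EE_zpow D s α (-1)
    rwa [zpow_neg_one, zpow_neg_one] at this
  have hx1 : Out p x := by rw [hx]; exact hout _ hα.1 hαinv
  have hx2 : Out p x⁻¹ := by
    rw [hx, ← hEinv]
    exact hout _ hαinv (by rw [inv_inv]; exact hα.1)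
  have hx0 : x ≠ 0 := by
    rintro rfl
    have h1 := (nn_EE hs hα).1
    rw [← hx] at h1
    have h2 : nn D (0 : K) 0 = 0 := by simp [nn]
    rw [h2] at h1
    exact hc0.ne h1
  obtain ⟨M, hM1, δ, hδ, hMδ⟩ := exists_pow_mod12 hp hx1 hx2 hx0
  have hcomm : ∀ (k : ℕ) (z : K), (D.σ ^ k) (EE D s z) = EE D s ((D.σ ^ k) z) := by
    intro k z
    have hc : ∀ (i : ℕ) (y : K), (D.σ ^ k) ((D.σ ^ i) y) = (D.σ ^ i) ((D.σ ^ k) y) := by
      intro i y
      rw [← AlgEquiv.mul_apply, ← AlgEquiv.mul_apply, ← pow_add, ← pow_add, add_comm]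
    unfold EE
    rw [map_mul, map_mul, map_pow, map_inv₀, map_pow, map_prod, hc]
    congr 1
    refine Finset.prod_congr rfl (fun t _ => ?_)
    rw [hc, map_mul, map_pow, map_pow, hc]
  -- the valuation
  obtain ⟨a, ha1, ha⟩ : ∃ a : ℕ, 1 ≤ a ∧ nn D α 0 = (p : ℝ) ^ (-(a : ℤ)) := by
    have h1 : nn D α 0 = ‖D.φ α‖ := by simp [nn]
    have h2 : D.φ α ≠ 0 := by simpa using hne
    have h3 := Padic.norm_eq_zpow_neg_valuation h2
    rw [h3, zpow_lt_one_iff_right₀ (by exact_mod_cast hp'.one_lt)] at hα1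
    refine ⟨(D.φ α).valuation.toNat, by omega, ?_⟩
    rw [h1, h3]
    congr 2
    omega
  have hp1 : (1 : ℝ) < p := by exact_mod_cast hp'.one_lt
  refine ⟨fun z => EE D s z ^ M, a * M, ?_, ?_, ?_⟩
  · intro z j
    show EE D s (z ^ j) ^ M = (EE D s z ^ M) ^ j
    rw [EE_zpow, ← zpow_natCast, ← zpow_natCast, ← zpow_mul, ← zpow_mul, mul_comm]
  · intro f hf
    refine FnK.pow ?_ M
    unfold EE
    refine FnK.mul (FnK.mul (hf.pow 3) ?_) (FnK.prod _ (fun t => ?_))
    · exact ((hf.lin (D.σ ^ (5 * s)).toLinearMap).pow 2).inv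
    · exact FnK.lin ((hf.pow 2).mul ((hf.lin (D.σ ^ (5 * s)).toLinearMap).pow 2))
        (D.σ ^ (6 * s - t)).toLinearMap
  · have hval : ∀ e : ℤ, ((nn D α 0) ^ e) ^ M = (p : ℝ) ^ (-(e * (a * M : ℕ))) := by
      intro e
      rw [ha, ← zpow_natCast, ← zpow_mul, ← zpow_mul]
      congr 1
      push_cast
      ring
    constructor
    · exact Nat.mul_pos ha1 hM1
    · show EE D s α ^ M ≠ 0
      rw [← hx]
      exact pow_ne_zero _ hx0
    · show (D.σ ^ D.m) (EE D s α ^ M) = (EE D s α ^ M)⁻¹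
      rw [map_pow, hcomm, hs, hinv, hEinv, inv_pow]
    · show Out p (EE D s α ^ M)
      rw [← hx]
      exact hx1.pow _
    · show Out p (EE D s α ^ M)⁻¹
      rw [← hx, ← inv_pow]
      exact hx2.pow _
    · show ‖D.φ (EE D s α ^ M)‖ = _
      have h1 : ‖D.φ (EE D s α ^ M)‖ = nn D (EE D s α) 0 ^ M := by simp [nn]
      rw [h1, (nn_EE hs hα).1]
      have := hval 1
      rw [zpow_one] at this
      rw [this]
      congr 1
      ring
    · intro i hi hi0 him
      show ‖D.φ ((D.σ ^ i) (EE D s α ^ M))‖ ≤ _ ∨ _ ≤ ‖D.φ ((D.σ ^ i) (EE D s α ^ M))‖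
      have h1 : ‖D.φ ((D.σ ^ i) (EE D s α ^ M))‖ = nn D (EE D s α) i ^ M := by
        rw [map_pow, map_pow, norm_pow]; rfl
      obtain ⟨e, he, h2⟩ := (nn_EE hs hα).2 i hi hi0 him
      rw [h1, h2, hval]
      have hV : (0 : ℤ) ≤ ((a * M : ℕ) : ℤ) := by positivity
      rcases he with he | he
      · left
        refine zpow_le_zpow_right₀ hp1.le ?_
        nlinarith
      · right
        refine zpow_le_zpow_right₀ hp1.le ?_
        nlinarith
    · refine ⟨δ, hδ, ?_⟩
      show EE D s α ^ M = 1 + 12 * δ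
      rw [← hx]; exact hMδ

end Vale.Agent.P027.T3
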