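import Vale.Agent.P027.R2.H250.Cap6
import Vale.Agent.P027.R3.H250.Defs

set_option linter.all false

/-! The common prime predicate away from `p`. -/

namespace Vale.Agent.P027.T2

open Vale.Agent.P027

theorem capture8_complete {b : ℤ} (hb : b.natAbs.Prime) (h12 : b % 12 = 5) {s : ℤ}
    (hs6 : IsCoprime 6 s) (hsb : IsCoprime b s) (L : List (ℤ × ℕ)) :
    ∃ a : ℚ, Cap3 a b ∧ ∀ R ∈ L, Con3 a b ((R.1 : ℚ) / s ^ R.2) := by
  have hu6 : ∀ t : ℕ, IsCoprime 6 (s ^ t) := fun t => hs6.pow_right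
  have hub : ∀ t : ℕ, IsCoprime b (s ^ t) := fun t => hsb.pow_right
  have hu12 : ∀ t : ℕ, (s ^ t) ^ 2 % 12 = 1 := by
    intro t
    have h6 := hu6 t
    generalize s ^ t = u at h6
    obtain ⟨x, y, hxy⟩ := h6
    have h2 : u % 2 = 1 := by
      by_contra h
      obtain ⟨k, hk⟩ : ∃ k, u = 2 * k := ⟨u / 2, by omega⟩
      rw [hk] at hxy
      have h1 : x * 6 + y * (2 * k) = 2 * (3 * x + y * k) := by ring
      omega
    have h3 : u % 3 ≠ 0 := by
      intro h
      obtain ⟨k, hk⟩ : ∃ k, u = 3 * k := ⟨u / 3, by omega⟩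
      rw [hk] at hxy
      have h1 : x * 6 + y * (3 * k) = 3 * (2 * x + y * k) := by ring
      omega
    have h4 : u % 12 = 1 ∨ u % 12 = 5 ∨ u % 12 = 7 ∨ u % 12 = 11 := by omega
    rw [pow_two, Int.mul_emod]
    rcases h4 with h | h | h | h <;> simp [h]
  obtain ⟨K, hK⟩ : ∃ K : ℤ × ℕ → ℤ, ∀ R, K R = (s ^ R.2) ^ 2 + 12 * b * R.1 ^ 2 :=
    ⟨_, fun _ => rfl⟩
  have hK12 : ∀ R, K R % 12 = 1 := by
    intro R
    have h5 := hu12 R.2
    have e : 12 * b * R.1 ^ 2 = 12 * (b * R.1 ^ 2) := by ring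
    rw [hK, e]
    omega
  obtain ⟨P, hP⟩ : ∃ P : ℕ, P = (L.map (fun R => (K R).natAbs)).prod := ⟨_, rfl⟩
  have hcoK : ∀ R, Nat.Coprime (12 * b.natAbs) (K R).natAbs := by
    intro R
    have h1 : IsCoprime (12 * b) (K R) := by
      have h2 : IsCoprime 12 (s ^ R.2) := by
        have h3 : IsCoprime 2 (s ^ R.2) := (hu6 R.2).of_mul_left_left (x := 2) (y := 3)
        have h4 := (hu6 R.2).mul_left h3
        norm_num at h4
        exact h4
      have h5 : IsCoprime (12 * b) ((s ^ R.2) ^ 2) := (h2.mul_left (hub R.2)).pow_right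
      rw [hK]
      exact h5.add_mul_left_right _
    rw [Int.isCoprime_iff_gcd_eq_one, Int.gcd, Int.natAbs_mul] at h1
    exact h1
  have hcoP : Nat.Coprime (12 * b.natAbs) P := by
    rw [hP]
    refine Nat.coprime_list_prod_right_iff.2 ?_
    intro n hn
    obtain ⟨R, -, rfl⟩ := List.mem_map.1 hn
    exact hcoK R
  have hP0 : P ≠ 0 := by
    rintro rfl
    rw [Nat.coprime_zero_right] at hcoP
    omega
  have hdvdP : ∀ R ∈ L, (K R).natAbs ∣ P := by
    intro r hr
    rw [hP]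
    exact List.dvd_prod (List.mem_map.2 ⟨r, hr, rfl⟩)
  have hB12 : Nat.Coprime 12 b.natAbs := by
    have h1 : IsCoprime (12 : ℤ) b := by
      refine IsCoprime.of_mul_left_left (y := 1) ?_
      have : b = 5 + 12 * (b / 12) := by omega
      rw [this, mul_one]
      exact ⟨-2 - 5 * (b / 12), 5, by ring⟩
    rw [Int.isCoprime_iff_gcd_eq_one, Int.gcd] at h1
    exact h1
  obtain ⟨p, hpM, hp, hp12, hpB, hpP⟩ := exists_prime_crt6 hB12 hb.ne_zero hP0 hcoP
    (b.natAbs + P + 3)
  have hp0 : (0 : ℤ) < p := by exact_mod_cast hp.pos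
  have hpb : b ∣ 1 - p := Int.natAbs_dvd.1 hpB
  have hpgt : ∀ x : ℤ, x ≠ 0 → x.natAbs < p → IsCoprime (p : ℤ) x := by
    intro x hx hxp
    have : Nat.Coprime p x.natAbs := by
      rw [Nat.Prime.coprime_iff_not_dvd hp]
      intro hd
      have := Nat.le_of_dvd (Int.natAbs_pos.2 hx) hd
      omega
    rw [Int.isCoprime_iff_gcd_eq_one, Int.gcd, Int.natAbs_natCast]
    exact this
  have hpq : (p : ℚ) ≠ 0 := by exact_mod_cast hp.ne_zero
  refine ⟨3 * p, ⟨mul_ne_zero (by norm_num) hpq, ?_, ?_⟩, ?_⟩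
  · -- the first norm
    have hJ : jacobiSym 3 p = 1 := by
      have h := jacobiSym.quadratic_reciprocity_three_mod_four (a := 3) (b := p) (by norm_num)
        (by omega)
      have e : (p : ℤ) % ((3 : ℕ) : ℤ) = (2 : ℤ) % ((3 : ℕ) : ℤ) := by push_cast; omega
      rw [jacobiSym.mod_left' e] at h
      have h2 : jacobiSym 2 3 = -1 := by
        rw [jacobiSym.at_two (by decide)]
        decide
      rw [h2, neg_neg] at h
      exact_mod_cast h
    obtain ⟨t, ht⟩ := sq_of_jacobi hp hJ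
    obtain ⟨x, z, hxz⟩ := gconic2 (α := 3) (β := -(p : ℤ)) (s := t) (t := 1) (by norm_num)
      (by omega) ((hpgt 3 (by norm_num) (by show 3 < p; omega)).symm.neg_right) ((neg_dvd).2 ht)
      (by omega) (fun k hk => by
        have := prime_not_sq Nat.prime_three k
        exact this (by exact_mod_cast hk))
    refine ⟨3 * z, x, ?_⟩
    push_cast at hxz
    linear_combination (-3) * hxz
  · -- the second norm
    have hJ : jacobiSym b p = 1 := by
      rw [recip_int (by omega) (by omega)]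
      have e : (p : ℤ) % b.natAbs = 1 % b.natAbs := Int.modEq_iff_dvd.2 hpB
      rw [jacobiSym.mod_left' e]
      exact jacobiSym.one_left _
    obtain ⟨t, ht⟩ := sq_of_jacobi hp hJ
    obtain ⟨x, z, hxz⟩ := gconic1 (α := p) (β := b) (s := 1) (t := t) hp0 (by omega)
      (hpgt b (by omega) (by omega)) (by simpa using hpb) ht (fun k hk => by
        rcases le_or_gt 0 b with h0 | h0
        · have h1 := prime_not_sq hb k
          rw [Int.natAbs_of_nonneg h0] at h1
          exact h1 hk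
        · have := sq_nonneg k
          omega)
    refine ⟨3 * x, 3 * z, ?_⟩
    push_cast at hxz
    linear_combination 9 * hxz
  · intro R hR
    have hKd : (K R) ∣ 3 - p := by
      have h1 : ((K R).natAbs : ℤ) ∣ (P : ℤ) := by exact_mod_cast hdvdP R hR
      exact Int.natAbs_dvd.1 (h1.trans hpP)
    have hK0 : K R ≠ 0 := by
      have := hK12 R
      omega
    have hKle : (K R).natAbs ≤ P := Nat.le_of_dvd (Nat.pos_of_ne_zero hP0) (hdvdP R hR)
    have hJ : jacobiSym (K R) p = 1 := by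
      have := hK12 R
      rw [recip_int (by omega) (by omega)]
      have e : (p : ℤ) % (K R).natAbs = 3 % (K R).natAbs :=
        Int.modEq_iff_dvd.2 (Int.natAbs_dvd.2 hKd)
      rw [jacobiSym.mod_left' e]
      exact jacobi_three_left (by omega) (by omega)
    obtain ⟨t, ht⟩ := sq_of_jacobi hp hJ
    have h3p : IsCoprime (3 : ℤ) (p : ℤ) := (hpgt 3 (by norm_num) (by show 3 < p; omega)).symm
    obtain ⟨r, hr⟩ := sq_crt h3p (a := K R) (s := 1) (t := t)
      (by have := hK12 R; omega) ht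
    have hcoK3 : IsCoprime (3 : ℤ) (K R) := by
      have h := hK12 R
      have e : K R = 1 + 3 * (4 * (K R / 12)) := by omega
      exact ⟨-(4 * (K R / 12)), 1, by linarith only [e]⟩
    obtain ⟨x, z, hxz⟩ := gconic2 (α := 3 * (p : ℤ)) (β := K R) (s := 3) (t := r)
      (by omega) hK0 (hcoK3.mul_left (hpgt _ hK0 (by omega)))
      (by
        obtain ⟨k, hk⟩ := hKd
        exact ⟨3 * k, by linear_combination 3 * hk⟩) hr
      (fun k hk => by
        have h1 : (3 : ℤ) ∣ k := by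
          have : (3 : ℤ) ∣ k ^ 2 := ⟨p, hk.symm⟩
          exact Int.prime_three.dvd_of_dvd_pow this
        obtain ⟨j, rfl⟩ := h1
        have h2 : (p : ℤ) = 3 * j ^ 2 := by linarith only [hk]
        omega)
    have hs0 : (s : ℚ) ≠ 0 := by
      rintro h0
      have : s = 0 := by exact_mod_cast h0
      subst this
      rw [isCoprime_zero_right, Int.isUnit_iff] at hs6
      norm_num at hs6
    refine ⟨x / s ^ R.2, z / s ^ R.2, ?_⟩
    have h1 : (1 : ℚ) + 12 * b * ((R.1 : ℚ) / s ^ R.2) ^ 2 = ((K R : ℤ) : ℚ) / (s ^ R.2) ^ 2 := by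
      rw [hK]
      push_cast
      field_simp
    rw [h1, hxz]
    push_cast
    field_simp


end Vale.Agent.P027.T2

namespace Vale.Agent.P027.T3

open Vale.Agent.P027 T2

theorem CPp.sound {p : ℕ} {A : List ℚ} (h : CPp p A) :
    ∃ q : ℕ, Inert3 q ∧ q ≠ p ∧ ∀ x ∈ A, x = 0 ∨ 1 ≤ padicValRat q x := by
  obtain ⟨a, b, hb, hpb, hc, h1, hA⟩ := h
  obtain ⟨q, hq, hodd⟩ := exists_inert3_odd hb
  have := Fact.mk hq.1
  refine ⟨q, hq, ?_, fun x hx => ?_⟩
  · rintro rfl
    rw [hpb] at hodd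
    simp at hodd
  have hb0 : b ≠ 0 := by
    rintro rfl
    simp at hodd
  have hb1 : 1 ≤ padicValRat q b := by
    have h2 := (capture3_sound hq hodd hc h1).resolve_left one_ne_zero
    rw [one_pow, mul_one] at h2
    rcases hodd with ⟨k, hk⟩
    omega
  by_cases hx0 : x = 0
  · exact Or.inl hx0
  · right
    have h3 := (capture3_sound hq hodd hc (hA x hx)).resolve_left (div_ne_zero hx0 hb0)
    rw [padicValRat.mul hb0 (pow_ne_zero _ (div_ne_zero hx0 hb0)), padicValRat.pow,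
      padicValRat.div hx0 hb0] at h3
    push_cast at h3
    omega

theorem CPp.complete {p : ℕ} (hp : p.Prime) (hp2 : p ≠ 2) (hp3 : p ≠ 3) {q : ℕ} (hq : Inert3 q)
    (hqp : q ≠ p) (A : List ℚ) (hA : ∀ x ∈ A, ∃ (n : ℤ) (t : ℕ), x = q * n / p ^ t) :
    CPp p A := by
  obtain ⟨b, hbq, hb12⟩ : ∃ b : ℤ, b.natAbs = q ∧ b % 12 = 5 := by
    rcases hq.2 with h | h
    · exact ⟨q, by simp, by omega⟩
    · exact ⟨-q, by simp, by omega⟩
  have hqb : ∃ ε : ℤ, (q : ℤ) = b * ε := by
    rcases Int.natAbs_eq b with h | h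
    · exact ⟨1, by rw [mul_one, ← hbq]; exact h.symm⟩
    · exact ⟨-1, by rw [hbq] at h; rw [h]; ring⟩
  obtain ⟨ε, hε⟩ := hqb
  have hb0 : (b : ℚ) ≠ 0 := by
    have : b ≠ 0 := by omega
    exact_mod_cast this
  have hA' : ∀ x : ℚ, ∃ R : ℤ × ℕ, x ∈ A → x = b * R.1 / p ^ R.2 := by
    intro x
    by_cases hx : x ∈ A
    · obtain ⟨n, t, hn⟩ := hA x hx
      refine ⟨(ε * n, t), fun _ => ?_⟩
      rw [hn]
      have : (q : ℚ) = b * ε := by exact_mod_cast hε
      rw [this]
      push_cast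
      ring
    · exact ⟨0, fun h => absurd h hx⟩
  choose n hn using hA'
  have hbp : b.natAbs.Prime := by rw [hbq]; exact hq.1
  have h6 : IsCoprime (6 : ℤ) p := by
    have : Nat.Coprime 6 p := by
      rw [show 6 = 2 * 3 by norm_num]
      exact Nat.Coprime.mul_left ((Nat.coprime_primes Nat.prime_two hp).2 hp2.symm)
        ((Nat.coprime_primes Nat.prime_three hp).2 hp3.symm)
    exact_mod_cast Nat.isCoprime_iff_coprime.2 this
  have hbs : IsCoprime b (p : ℤ) := by
    rw [Int.isCoprime_iff_gcd_eq_one, Int.gcd, hbq, Int.natAbs_natCast]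
    exact (Nat.coprime_primes hq.1 hp).2 hqp
  obtain ⟨a, hcap, hcon⟩ := capture8_complete hbp hb12 h6 hbs ((1, 0) :: A.map n)
  refine ⟨a, b, ?_, ?_, hcap, ?_, fun x hx => ?_⟩
  · obtain ⟨k, hk⟩ : ∃ k : ℤ, b = 5 + 12 * k := ⟨(b - 5) / 12, by omega⟩
    have hk' : ((b : ℚ) - 5) / 12 = k := by
      have : (b : ℚ) = 5 + 12 * k := by exact_mod_cast hk
      rw [this]; ring
    constructor
    · rw [hk', padicValRat.of_int]
      exact_mod_cast Nat.zero_le _
    · rw [hk', padicValRat.of_int]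
      exact_mod_cast Nat.zero_le _
  · have := Fact.mk hp
    have := Fact.mk hq.1
    rw [padicValRat.of_int, padicValInt, hbq, padicValNat_primes hqp.symm]
    rfl
  · have := hcon (1, 0) (by simp)
    simpa using this
  · have h1 := hcon (n x) (by simp; right; exact ⟨x, hx, rfl⟩)
    have e : x / b = ((n x).1 : ℚ) / ((p : ℤ) : ℚ) ^ (n x).2 := by
      rw [div_eq_iff hb0]
      push_cast
      exact (hn x hx).trans (by ring)
    rw [e]
    exact h1

end Vale.Agent.P027.T3
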