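import Vale.Agent.P027.R3.H250.Inst
import Vale.Agent.P027.R3.H124.FldAll
import Vale.Agent.P027.R3.H124.Main3

set_option linter.all false

/-! The forms of the theorem for the fields of `3 ^ κ`-th roots of unity. -/

namespace Vale.Agent.P027.T3

open Vale.Agent.P027 Module

/-- the denominators that are allowed -/
def OkDen (κ p : ℕ) (P : Finset ℕ) (x : ℚ) : Prop :=
  ∀ r : ℕ, r.Prime → r ∣ x.den → r = p ∨ r ∈ P ∨ ¬ r ≡ 1 [MOD 3 ^ κ]

theorem form_cyc (κ p : ℕ) (hκ : 2 ≤ κ) (hp : p.Prime) (h3 : p ≡ 1 [MOD 3 ^ κ])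
    (h12 : p % 12 = 7) (P : Finset ℕ) : Form p (fun R => ∀ x ∈ R, OkDen κ p P x) := by
  have := Fact.mk hp
  obtain ⟨D, hm, hint⟩ := exists_fld κ p hκ h3
  obtain ⟨A, hA, hadm⟩ := exists_RD D h12 hm (fun r => r ≡ 1 [MOD 3 ^ κ]) hint P
  have h := A.form
  rw [hA] at h
  intro k S hS
  obtain ⟨m, F, hF⟩ := h k S hS
  refine ⟨m, F, fun R hR hok => hF R hR (fun t ht => hadm t (fun j r hr hrd => ?_))⟩
  exact hok _ (ht j) r hr hrd

end Vale.Agent.P027.T3
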