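import Mathlib

set_option linter.all false

/-! The height bound from the values of the form
`x ^ (4 * t) + m ^ t * x ^ (2 * t) + m ^ (2 * t)`, `t = 3 ^ (κ - 1)`. -/

namespace Vale.Agent.P027.T3

/-- prime factors of the form -/
theorem form_prime {κ m : ℕ} (hκ : 1 ≤ κ) {a B q : ℕ} (hq : q.Prime) (hab : a.Coprime B)
    (hm : ¬ q ∣ m) (hq3 : q ≠ 3)
    (h : q ∣ a ^ (4 * 3 ^ (κ - 1)) + m ^ (3 ^ (κ - 1)) * a ^ (2 * 3 ^ (κ - 1)) *
      B ^ (2 * 3 ^ (κ - 1)) + m ^ (2 * 3 ^ (κ - 1)) * B ^ (4 * 3 ^ (κ - 1))) :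
    q ≡ 1 [MOD 3 ^ κ] ∧ IsSquare (m : ZMod q) := by
  have hqF := Fact.mk hq
  obtain ⟨T, hT⟩ : ∃ T, T = 3 ^ (κ - 1) := ⟨_, rfl⟩
  rw [← hT] at h
  have hTpos : 1 ≤ T := by rw [hT]; exact Nat.one_le_pow _ _ (by norm_num)
  have hTκ : 3 ^ κ = 3 ^ (κ - 1 + 1) := by congr 1; omega
  have hB : ¬ q ∣ B := by
    intro hB
    have h1 : q ∣ B ^ (2 * T) := dvd_pow hB (by omega)
    have h2 : q ∣ B ^ (4 * T) := dvd_pow hB (by omega)
    have h3 : q ∣ a ^ (4 * T) + m ^ T * a ^ (2 * T) * B ^ (2 * T) :=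
      (Nat.dvd_add_left (h2.mul_left _)).1 h
    have h4 : q ∣ a ^ (4 * T) := (Nat.dvd_add_left (h1.mul_left _)).1 h3
    have h5 := hq.dvd_of_dvd_pow h4
    exact hq.one_lt.ne' (Nat.eq_one_of_dvd_coprimes hab h5 hB)
  have ha : ¬ q ∣ a := by
    intro ha
    have h1 : q ∣ a ^ (4 * T) := dvd_pow ha (by omega)
    have h2 : q ∣ a ^ (2 * T) := dvd_pow ha (by omega)
    have h3 : q ∣ m ^ T * a ^ (2 * T) * B ^ (2 * T) := (h2.mul_left _).mul_right _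
    have h4 : q ∣ m ^ (2 * T) * B ^ (4 * T) := (Nat.dvd_add_right (dvd_add h1 h3)).1 h
    rcases hq.dvd_mul.1 h4 with h5 | h5
    · exact hm (hq.dvd_of_dvd_pow h5)
    · exact hB (hq.dvd_of_dvd_pow h5)
  have hB0 : (B : ZMod q) ≠ 0 := by rwa [Ne, ZMod.natCast_eq_zero_iff]
  have ha0 : (a : ZMod q) ≠ 0 := by rwa [Ne, ZMod.natCast_eq_zero_iff]
  have hm0 : (m : ZMod q) ≠ 0 := by rwa [Ne, ZMod.natCast_eq_zero_iff]
  have h30 : (3 : ZMod q) ≠ 0 := by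
    have : ((3 : ℕ) : ZMod q) ≠ 0 := by
      rw [Ne, ZMod.natCast_eq_zero_iff, Nat.prime_dvd_prime_iff_eq hq Nat.prime_three]
      exact hq3
    simpa using this
  have h0 : (a : ZMod q) ^ (4 * T) + (m : ZMod q) ^ T * (a : ZMod q) ^ (2 * T) *
      (B : ZMod q) ^ (2 * T) + (m : ZMod q) ^ (2 * T) * (B : ZMod q) ^ (4 * T) = 0 := by
    have := (ZMod.natCast_eq_zero_iff _ q).2 h
    push_cast at this
    exact this
  obtain ⟨g, hg⟩ : ∃ g : ZMod q, g = (a : ZMod q) ^ 2 / ((m : ZMod q) * (B : ZMod q) ^ 2) :=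
    ⟨_, rfl⟩
  have hw : (m : ZMod q) * (B : ZMod q) ^ 2 ≠ 0 := mul_ne_zero hm0 (pow_ne_zero _ hB0)
  have hg0 : g ≠ 0 := by rw [hg]; exact div_ne_zero (pow_ne_zero _ ha0) hw
  have hρ : (g ^ T) ^ 2 + g ^ T + 1 = 0 := by
    have hwT : ((m : ZMod q) * (B : ZMod q) ^ 2) ^ T ≠ 0 := pow_ne_zero _ hw
    have h1 : g ^ T * ((m : ZMod q) * (B : ZMod q) ^ 2) ^ T = ((a : ZMod q) ^ 2) ^ T := by
      rw [← mul_pow, hg, div_mul_cancel₀ _ hw]
    have h2 : ((g ^ T) ^ 2 + g ^ T + 1) * (((m : ZMod q) * (B : ZMod q) ^ 2) ^ T) ^ 2 = 0 := by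
      have e : ((g ^ T) ^ 2 + g ^ T + 1) * (((m : ZMod q) * (B : ZMod q) ^ 2) ^ T) ^ 2 =
          (g ^ T * ((m : ZMod q) * (B : ZMod q) ^ 2) ^ T) ^ 2 +
          (g ^ T * ((m : ZMod q) * (B : ZMod q) ^ 2) ^ T) * ((m : ZMod q) * (B : ZMod q) ^ 2) ^ T +
          (((m : ZMod q) * (B : ZMod q) ^ 2) ^ T) ^ 2 := by ring
      rw [e, h1, ← h0]
      ring
    exact (mul_eq_zero.1 h2).resolve_right (pow_ne_zero _ hwT)
  have hg1 : g ^ T ≠ 1 := by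
    intro h1
    rw [h1] at hρ
    apply h30
    rw [← hρ]; norm_num
  have hg3 : g ^ (3 ^ κ) = 1 := by
    rw [hTκ, pow_succ, ← hT, pow_mul]
    have e : (g ^ T) ^ 3 - 1 = (g ^ T - 1) * ((g ^ T) ^ 2 + g ^ T + 1) := by ring
    rw [hρ, mul_zero] at e
    exact sub_eq_zero.1 e
  have hord : orderOf g = 3 ^ κ := by
    have h3p := Fact.mk Nat.prime_three
    rw [hTκ]
    refine orderOf_eq_prime_pow ?_ ?_
    · rw [← hT]; exact hg1
    · rw [← hTκ]; exact hg3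
  constructor
  · have h1 := ZMod.orderOf_dvd_card_sub_one hg0
    rw [hord] at h1
    have := hq.one_lt
    exact ((Nat.modEq_iff_dvd' (by omega)).2 h1).symm
  · obtain ⟨c, hc⟩ : ∃ c, 3 ^ κ = 2 * c + 1 := (Odd.pow (by decide : Odd 3))
    obtain ⟨y, hy⟩ : ∃ y : ZMod q, y = g ^ (c + 1) := ⟨_, rfl⟩
    have hyy : y ^ 2 = g := by
      have : y ^ 2 = g ^ (3 ^ κ) * g := by
        rw [hy, hc]; ring
      rw [this, hg3, one_mul]
    have hy0 : y ≠ 0 := by rw [hy]; exact pow_ne_zero _ hg0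
    refine ⟨(a : ZMod q) / ((B : ZMod q) * y), ?_⟩
    have h1 : g * ((m : ZMod q) * (B : ZMod q) ^ 2) = (a : ZMod q) ^ 2 := by
      rw [hg, div_mul_cancel₀ _ hw]
    rw [← hyy] at h1
    field_simp
    linear_combination h1

theorem form_three {m T : ℕ} (hT : 1 ≤ T) {a B : ℕ} (hab : a.Coprime B) (hm : ¬ 3 ∣ m) :
    ¬ 9 ∣ a ^ (4 * T) + m ^ T * a ^ (2 * T) * B ^ (2 * T) + m ^ (2 * T) * B ^ (4 * T) := by
  intro h
  obtain ⟨U, hU⟩ : ∃ U, U = a ^ (2 * T) := ⟨_, rfl⟩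
  obtain ⟨V, hV⟩ : ∃ V, V = m ^ T * B ^ (2 * T) := ⟨_, rfl⟩
  have e : a ^ (4 * T) + m ^ T * a ^ (2 * T) * B ^ (2 * T) + m ^ (2 * T) * B ^ (4 * T) =
      U ^ 2 + U * V + V ^ 2 := by
    rw [hU, hV]; ring
  rw [e] at h
  have hkey : ∀ x y : ZMod 9, x ^ 2 + x * y + y ^ 2 = 0 → x * 3 = 0 ∧ y * 3 = 0 := by decide
  have h9 : (U : ZMod 9) ^ 2 + U * V + (V : ZMod 9) ^ 2 = 0 := by
    have := (ZMod.natCast_eq_zero_iff _ 9).2 h
    push_cast at this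
    exact this
  obtain ⟨h1, h2⟩ := hkey _ _ h9
  have h3 : 3 ∣ U := by
    have : ((U * 3 : ℕ) : ZMod 9) = 0 := by push_cast; exact h1
    rw [ZMod.natCast_eq_zero_iff] at this
    omega
  have h4 : 3 ∣ V := by
    have : ((V * 3 : ℕ) : ZMod 9) = 0 := by push_cast; exact h2
    rw [ZMod.natCast_eq_zero_iff] at this
    omega
  have h5 : 3 ∣ a := by
    rw [hU] at h3
    exact Nat.prime_three.dvd_of_dvd_pow h3
  have h6 : 3 ∣ B := by
    rw [hV] at h4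
    rcases Nat.prime_three.dvd_mul.1 h4 with h7 | h7
    · exact absurd (Nat.prime_three.dvd_of_dvd_pow h7) hm
    · exact Nat.prime_three.dvd_of_dvd_pow h7
  have := Nat.eq_one_of_dvd_coprimes hab h5 h6
  omega

theorem form_m {m T : ℕ} (hT : 1 ≤ T) (hm : m.Prime) {a B : ℕ} (hab : a.Coprime B) :
    ¬ m ^ (2 * T + 1) ∣
      a ^ (4 * T) + m ^ T * a ^ (2 * T) * B ^ (2 * T) + m ^ (2 * T) * B ^ (4 * T) := by
  intro h
  have hmT : m ∣ m ^ T := dvd_pow_self m (by omega)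
  have hm2T : m ∣ m ^ (2 * T) := dvd_pow_self m (by omega)
  have h1 : m ∣ a := by
    have h2 : m ∣ a ^ (4 * T) + m ^ T * a ^ (2 * T) * B ^ (2 * T) + m ^ (2 * T) * B ^ (4 * T) :=
      (dvd_pow_self m (by omega)).trans h
    have h3 := (Nat.dvd_add_left (hm2T.mul_right (B ^ (4 * T)))).1 h2
    have h4 := (Nat.dvd_add_left ((hmT.mul_right (a ^ (2 * T))).mul_right (B ^ (2 * T)))).1 h3
    exact hm.dvd_of_dvd_pow h4
  obtain ⟨c, rfl⟩ := h1
  have e : (m * c) ^ (4 * T) + m ^ T * (m * c) ^ (2 * T) * B ^ (2 * T) +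
      m ^ (2 * T) * B ^ (4 * T) = m ^ (2 * T) * (m ^ (2 * T) * c ^ (4 * T) +
      m ^ T * c ^ (2 * T) * B ^ (2 * T) + B ^ (4 * T)) := by
    have e1 : 4 * T = 2 * T + 2 * T := by ring
    rw [mul_pow, mul_pow, e1, pow_add m]
    ring
  rw [e, pow_succ] at h
  have h2 := Nat.dvd_of_mul_dvd_mul_left (pow_pos hm.pos _) h
  have h3 := (Nat.dvd_add_right (dvd_add (hm2T.mul_right (c ^ (4 * T)))
    ((hmT.mul_right (c ^ (2 * T))).mul_right (B ^ (2 * T))))).1 h2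
  have h4 := hm.dvd_of_dvd_pow h3
  exact hm.one_lt.ne' (Nat.eq_one_of_dvd_coprimes hab (Dvd.intro _ rfl) h4)

theorem height_bound {κ m : ℕ} (hκ : 1 ≤ κ) (hm : m.Prime) (hm3 : m ≠ 3) {x Y v : ℚ} (hY : Y ≠ 0)
    (h : v * (x ^ (4 * 3 ^ (κ - 1)) + (m : ℚ) ^ (3 ^ (κ - 1)) * x ^ (2 * 3 ^ (κ - 1)) +
      (m : ℚ) ^ (2 * 3 ^ (κ - 1))) = Y)
    (hv : ∀ q : ℕ, q.Prime → q ∣ v.den → q ≠ 3 → q ≠ m →
      ¬ (q ≡ 1 [MOD 3 ^ κ] ∧ IsSquare (m : ZMod q))) :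
    (max x.num.natAbs x.den) ^ (4 * 3 ^ (κ - 1)) ≤ 3 * m ^ (2 * 3 ^ (κ - 1)) * Y.num.natAbs := by
  have hprime := @form_prime κ m hκ x.num.natAbs x.den
  obtain ⟨T, hT⟩ : ∃ T, T = 3 ^ (κ - 1) := ⟨_, rfl⟩
  rw [← hT] at h ⊢
  simp only [← hT] at hprime
  have hTpos : 1 ≤ T := by rw [hT]; exact Nat.one_le_pow _ _ (by norm_num)
  obtain ⟨a, ha⟩ : ∃ a, a = x.num.natAbs := ⟨_, rfl⟩
  obtain ⟨B, hB⟩ : ∃ B, B = x.den := ⟨_, rfl⟩
  rw [← ha, ← hB] at hprime ⊢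
  have hab : a.Coprime B := by rw [ha, hB]; exact x.reduced
  have hBpos : 0 < B := by rw [hB]; exact x.den_pos
  obtain ⟨N, hN⟩ : ∃ N, N = a ^ (4 * T) + m ^ T * a ^ (2 * T) * B ^ (2 * T) +
      m ^ (2 * T) * B ^ (4 * T) := ⟨_, rfl⟩
  have hNpos : 0 < N := by
    rw [hN]
    have : 0 < m ^ (2 * T) * B ^ (4 * T) := Nat.mul_pos (pow_pos hm.pos _) (pow_pos hBpos _)
    omega
  -- the equation
  have hx : x = (x.num : ℚ) / B := by rw [hB]; exact x.num_div_den.symm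
  have hB0 : (B : ℚ) ≠ 0 := by exact_mod_cast hBpos.ne'
  have hnum2 : ∀ l : ℕ, (x.num : ℚ) ^ (2 * l) = (a : ℚ) ^ (2 * l) := by
    intro l
    rw [pow_mul, pow_mul]
    congr 1
    have : (x.num) ^ 2 = ((a : ℕ) : ℤ) ^ 2 := by rw [ha, Int.natAbs_sq]
    exact_mod_cast this
  have hNq : (N : ℚ) = (x ^ (4 * T) + (m : ℚ) ^ T * x ^ (2 * T) + (m : ℚ) ^ (2 * T)) *
      (B : ℚ) ^ (4 * T) := by
    have e1 : x ^ (4 * T) * (B : ℚ) ^ (4 * T) = (a : ℚ) ^ (4 * T) := by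
      rw [← mul_pow]
      have : x * B = x.num := by
        conv_lhs => rw [hx]
        rw [div_mul_cancel₀ _ hB0]
      rw [this]
      have h4 : 4 * T = 2 * (2 * T) := by ring
      rw [h4, hnum2]
    have e2 : x ^ (2 * T) * (B : ℚ) ^ (2 * T) = (a : ℚ) ^ (2 * T) := by
      rw [← mul_pow]
      have : x * B = x.num := by
        conv_lhs => rw [hx]
        rw [div_mul_cancel₀ _ hB0]
      rw [this, hnum2]
    rw [hN]
    push_cast
    rw [← e1, ← e2]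
    have h4 : 4 * T = 2 * T + 2 * T := by ring
    rw [h4, pow_add]
    ring
  have hdvd : N ∣ Y.num.natAbs * (v.den * B ^ (4 * T)) := by
    have e : v.num * N * Y.den = Y.num * (v.den * (B : ℤ) ^ (4 * T)) := by
      have h1 : (v.num : ℚ) * N * Y.den = Y.num * (v.den * (B : ℚ) ^ (4 * T)) := by
        have hvd : (v.den : ℚ) ≠ 0 := by exact_mod_cast v.den_ne_zero
        have hYd : (Y.den : ℚ) ≠ 0 := by exact_mod_cast Y.den_ne_zero
        have e1 : (v.num : ℚ) = v * v.den := (Rat.mul_den_eq_num v).symm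
        have e2 : (Y.num : ℚ) = Y * Y.den := (Rat.mul_den_eq_num Y).symm
        rw [e1, e2, hNq, ← h]
        ring
      exact_mod_cast h1
    have h2 : (N : ℤ) ∣ Y.num * (v.den * (B : ℤ) ^ (4 * T)) := by
      rw [← e]
      exact ((dvd_refl _).mul_left _).mul_right _
    have h3 := Int.natAbs_dvd_natAbs.2 h2
    rw [Int.natAbs_mul, Int.natAbs_mul, Int.natAbs_pow] at h3
    simpa using h3
  -- the decomposition
  obtain ⟨i, N₁, hN₁3, hN₁⟩ := Nat.exists_eq_pow_mul_and_not_dvd hNpos.ne' 3 (by norm_num)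
  have hN₁0 : N₁ ≠ 0 := by rintro rfl; simp at hN₁; omega
  obtain ⟨j, N₂, hN₂m, hN₂⟩ := Nat.exists_eq_pow_mul_and_not_dvd hN₁0 m hm.one_lt.ne'
  have hm3' : ¬ 3 ∣ m := by
    rw [Nat.prime_dvd_prime_iff_eq Nat.prime_three hm]
    exact fun h => hm3 h.symm
  have hi : i ≤ 1 := by
    by_contra hcon
    apply form_three hTpos hab hm3'
    rw [← hN, hN₁]
    have : (3 : ℕ) ^ 2 ∣ 3 ^ i := pow_dvd_pow _ (by omega)
    exact (by simpa using this : 9 ∣ 3 ^ i).mul_right _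
  have hj : j ≤ 2 * T := by
    by_contra hcon
    apply form_m hTpos hm hab
    rw [← hN, hN₁, hN₂]
    exact ((pow_dvd_pow m (by omega)).mul_right _).mul_left _
  have hN₂N : N₂ ∣ N := by rw [hN₁, hN₂]; exact ((dvd_refl _).mul_left _).mul_left _
  have hco : N₂.Coprime (v.den * B ^ (4 * T)) := by
    refine Nat.Coprime.mul_right ?_ (Nat.Coprime.pow_right _ ?_)
    · refine Nat.coprime_of_dvd (fun q hq hqN hqd => ?_)
      have hq3 : q ≠ 3 := by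
        rintro rfl
        exact hN₁3 (by rw [hN₂]; exact hqN.mul_left _)
      have hqm : q ≠ m := by
        rintro rfl
        exact hN₂m hqN
      have hqm' : ¬ q ∣ m := by
        rw [Nat.prime_dvd_prime_iff_eq hq hm]
        exact hqm
      exact hv q hq hqd hq3 hqm (hprime hq hab hqm' hq3 (by rw [← hN]; exact hqN.trans hN₂N))
    · refine Nat.coprime_of_dvd (fun q hq hqN hqB => ?_)
      have h1 : q ∣ B ^ (2 * T) := dvd_pow hqB (by omega)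
      have h2 : q ∣ B ^ (4 * T) := dvd_pow hqB (by omega)
      have h3 : q ∣ N := hqN.trans hN₂N
      rw [hN] at h3
      have h4 := (Nat.dvd_add_left (h2.mul_left _)).1 h3
      have h5 := (Nat.dvd_add_left (h1.mul_left _)).1 h4
      exact hq.one_lt.ne' (Nat.eq_one_of_dvd_coprimes hab (hq.dvd_of_dvd_pow h5) hqB)
  have hfin : N₂ ∣ Y.num.natAbs := hco.dvd_of_dvd_mul_right (hN₂N.trans hdvd)
  have hYpos : 0 < Y.num.natAbs := Int.natAbs_pos.2 (Rat.num_ne_zero.2 hY)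
  have hN₂le : N₂ ≤ Y.num.natAbs := Nat.le_of_dvd hYpos hfin
  have hle : N ≤ 3 * m ^ (2 * T) * Y.num.natAbs := by
    rw [hN₁, hN₂, ← mul_assoc]
    refine Nat.mul_le_mul (Nat.mul_le_mul ?_ ?_) hN₂le
    · calc 3 ^ i ≤ 3 ^ 1 := Nat.pow_le_pow_right (by norm_num) hi
        _ = 3 := by norm_num
    · exact Nat.pow_le_pow_right hm.pos hj
  refine le_trans ?_ hle
  rw [hN]
  rcases max_choice a B with h1 | h1 <;> rw [h1]
  · omega
  · have : 1 * B ^ (4 * T) ≤ m ^ (2 * T) * B ^ (4 * T) :=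
      Nat.mul_le_mul_right _ (Nat.one_le_pow _ _ hm.pos)
    omega

/-- a prime which is not a square modulo the primes of a finite set that are congruent to one -/
theorem exists_m (κ : ℕ) (hκ : 1 ≤ κ) (Q₀ : Finset ℕ) : ∃ m : ℕ, m.Prime ∧ m ≠ 3 ∧
    ∀ q ∈ Q₀, q.Prime → q ≡ 1 [MOD 3 ^ κ] → ¬ IsSquare (m : ZMod q) := by
  classical
  obtain ⟨S, hS⟩ : ∃ S : Finset ℕ, S = Q₀.filter (fun q => q.Prime ∧ q ≡ 1 [MOD 3 ^ κ]) :=
    ⟨_, rfl⟩
  have hSp : ∀ q ∈ S, q.Prime ∧ q ≡ 1 [MOD 3 ^ κ] := by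
    intro q hq
    rw [hS, Finset.mem_filter] at hq
    exact hq.2
  have h2 : ∀ q ∈ S, q ≠ 2 := by
    rintro q hq rfl
    have h1 := (hSp 2 hq).2
    have h3 : (3 : ℕ) ∣ 3 ^ κ := dvd_pow_self 3 (by omega)
    have h4 := h1.of_dvd h3
    exact absurd h4 (by decide)
  have hex : ∀ q, ∃ n : ℕ, q ∈ S → ¬ IsSquare (n : ZMod q) := by
    intro q
    by_cases hq : q ∈ S
    · have hqF := Fact.mk (hSp q hq).1
      obtain ⟨a, ha⟩ := FiniteField.exists_nonsquare (F := ZMod q) (by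
        rw [ZMod.ringChar_zmod_n]; exact h2 q hq)
      refine ⟨a.val, fun _ => ?_⟩
      rw [ZMod.natCast_zmod_val]
      exact ha
    · exact ⟨0, fun h => absurd h hq⟩
  choose n hn using hex
  have hco : Set.Pairwise (↑S : Set ℕ) (Function.onFun Nat.Coprime (fun q => q)) := by
    intro q hq r hr hqr
    exact (Nat.coprime_primes (hSp q hq).1 (hSp r hr).1).2 hqr
  obtain ⟨k, hk⟩ := Nat.chineseRemainderOfFinset n (fun q => q) S
    (fun q hq => (hSp q hq).1.ne_zero) hco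
  obtain ⟨M, hM⟩ : ∃ M, M = ∏ q ∈ S, q := ⟨_, rfl⟩
  have hM0 : M ≠ 0 := by
    rw [hM]
    exact Finset.prod_ne_zero_iff.2 (fun q hq => (hSp q hq).1.ne_zero)
  have hMne := NeZero.mk hM0
  have hkq : ∀ q ∈ S, ((k : ℕ) : ZMod q) = (n q : ZMod q) := fun q hq =>
    (ZMod.natCast_eq_natCast_iff _ _ _).2 (hk q hq)
  have hkM : k.Coprime M := by
    rw [hM]
    refine Nat.Coprime.prod_right (fun q hq => ?_)
    rw [Nat.coprime_comm, (hSp q hq).1.coprime_iff_not_dvd]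
    intro hdvd
    have h1 := (ZMod.natCast_eq_zero_iff k q).2 hdvd
    rw [hkq q hq] at h1
    apply hn q hq
    rw [h1]
    exact ⟨0, by simp⟩
  have hunit : IsUnit ((k : ℕ) : ZMod M) := (ZMod.isUnit_iff_coprime k M).2 hkM
  obtain ⟨m, hm3, hm, hmk⟩ := Nat.forall_exists_prime_gt_and_eq_mod hunit 3
  refine ⟨m, hm, by omega, fun q hq hqp hq1 => ?_⟩
  have hqS : q ∈ S := by
    rw [hS, Finset.mem_filter]
    exact ⟨hq, hqp, hq1⟩
  have h1 : (m : ZMod q) = (k : ℕ) := by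
    rw [ZMod.natCast_eq_natCast_iff] at hmk ⊢
    refine hmk.of_dvd ?_
    rw [hM]
    exact Finset.dvd_prod_of_mem _ hqS
  rw [h1, hkq q hqS]
  exact hn q hqS

end Vale.Agent.P027.T3
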