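import Vale.Agent.P027.R3.H250.InstX
import Vale.Agent.P027.R3.H124.SpecX
import Vale.Agent.P027.R3.H124.FldAll
import Vale.Agent.P027.R3.H124.Main4
import Vale.Agent.P027.R3.H124.ReadX
import Vale.Agent.P027.R3.H124.CompX
import Vale.Agent.P027.R3.H250.HB
import Vale.Agent.P027.R3.H18.FormX
import Vale.Agent.P027.R2.H124.MainT2

set_option linter.all false

/-! Every recursively enumerable set of tuples of integers is Diophantine over the rings of the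
theorem. -/

namespace Vale.Agent.P027.T3

open Vale.Agent.P027 MvPolynomial Module

theorem htB_cyc {κ : ℕ} (hκ : 1 ≤ κ) {m : ℕ} (hm : m.Prime) (hm3 : m ≠ 3) {okv : ℚ → Prop}
    (hok : ∀ v, okv v → ∀ q : ℕ, q.Prime → q ∣ v.den → ¬ (q ≡ 1 [MOD 3 ^ κ] ∧
      IsSquare (m : ZMod q))) : RD.HtB okv m (3 ^ (κ - 1)) (3 * m ^ (2 * 3 ^ (κ - 1))) := by
  intro v x Y hv h hY
  have h1 := height_bound (x := x) hκ hm hm3 hY h (fun q hq hqd _ _ => hok v hv q hq hqd)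
  have h2 : max x.num.natAbs x.den ≤ (max x.num.natAbs x.den) ^ (4 * 3 ^ (κ - 1)) :=
    Nat.le_self_pow (by positivity) _
  have h3 := h2.trans h1
  exact ⟨(le_max_left _ _).trans h3, (le_max_right _ _).trans h3⟩

theorem formX_cyc (κ p : ℕ) (hκ : 2 ≤ κ) (hp : p.Prime) (h3 : p ≡ 1 [MOD 3 ^ κ])
    (h12 : p % 12 = 7) (P : Finset ℕ) :
    FormX p (fun R => ∀ x ∈ R, ∀ r : ℕ, r.Prime → r ∣ x.den →
      r = p ∨ r ∈ P ∨ ¬ r ≡ 1 [MOD 3 ^ κ]) := by
  have := Fact.mk hp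
  obtain ⟨D, hm, hint⟩ := exists_fld κ p hκ h3
  obtain ⟨A, hA, -, hadm, hcpk, hgrow, hdiv, -⟩ :=
    exists_RD'' D h12 hm (fun r => r ≡ 1 [MOD 3 ^ κ]) hint P
  obtain ⟨m, hmp, hm3, hmq⟩ := exists_m κ (by omega) (insert p P)
  have hB : RD.HtB (fun v => ∀ r : ℕ, r.Prime → r ∣ v.den → r = p ∨ r ∈ P ∨ ¬ r ≡ 1 [MOD 3 ^ κ]) m
      (3 ^ (κ - 1)) (3 * m ^ (2 * 3 ^ (κ - 1))) := by
    refine htB_cyc (by omega) hmp hm3 ?_
    rintro v hv q hq hqd ⟨h1, h2⟩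
    refine hmq q ?_ hq h1 h2
    rcases hv q hq hqd with h | h | h
    · rw [h]; exact Finset.mem_insert_self _ _
    · exact Finset.mem_insert_of_mem h
    · exact absurd h1 h
  have h := A.formX (A.readX_sound hcpk) A.readX_complete hgrow hdiv hmp.pos hB
  rw [hA] at h
  intro k S hS
  obtain ⟨m', r, F, hF⟩ := h k S hS
  refine ⟨m', r, F, fun R R' hR hok hR' => hF R R' hR ⟨fun t ht => hadm t (fun j r hr hrd => ?_),
    fun v hv => hok v hv⟩ hR'⟩
  exact hok _ (ht j) r hr hrd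

/-- if one of the sets `R` is Diophantine over the rationals -/
theorem formX_cond {p : ℕ} {ok : Set ℚ → Prop} (hform : FormX p ok)
    (R : Set ℚ) (hR1 : ∀ (z : ℤ) (j : ℕ), (z : ℚ) / (p : ℚ) ^ j ∈ R) (hR2 : ok R)
    (hR : ∃ (l : ℕ) (g : MvPolynomial (Fin 1 ⊕ Fin l) ℤ), ∀ x : ℚ,
      (x ∈ R ↔ ∃ z : Fin l → ℚ, aeval (Sum.elim (fun _ => x) z) g = 0))
    (k : ℕ) (S : Set (Fin k → ℤ)) (hS : REPred (fun a => a ∈ S)) :
    ∃ (r : ℕ) (F : MvPolynomial (Fin k ⊕ Fin r) ℤ), ∀ x : Fin k → ℚ,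
      ((∃ a ∈ S, ∀ i, x i = a i) ↔ ∃ y : Fin r → ℚ, aeval (Sum.elim x y) F = 0) := by
  obtain ⟨m, r, F, hF⟩ := hform k S hS
  obtain ⟨l, g, hg⟩ := hR
  -- unknowns `u i`, `y j`, `z i j`
  let W : Type := (Fin m ⊕ Fin r) ⊕ (Fin m × Fin l)
  let eq : Fin (Fintype.card W) ≃ W := (Fintype.equivFin W).symm
  let F₁ : MvPolynomial (Fin k ⊕ W) ℤ :=
    (rename (Sum.map id Sum.inl) F) ^ 2 +
    ∑ i : Fin m, (rename (Sum.elim (fun _ => Sum.inr (Sum.inl (Sum.inl i)))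
      (fun j => Sum.inr (Sum.inr (i, j)))) g) ^ 2
  refine ⟨Fintype.card W, rename (Sum.map id eq.symm) F₁, fun x => ?_⟩
  have ev : ∀ w : W → ℚ, aeval (Sum.elim x w) F₁ =
      (aeval (Sum.elim x (Sum.elim (fun i => w (Sum.inl (Sum.inl i)))
        (fun i => w (Sum.inl (Sum.inr i))))) F) ^ 2 + ∑ i : Fin m,
        (aeval (Sum.elim (fun _ => w (Sum.inl (Sum.inl i))) (fun j => w (Sum.inr (i, j)))) g) ^ 2 := by
    intro w
    simp only [F₁, map_add, map_pow, map_sum, aeval_rename]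
    congr 1
    · congr 2
      congr 1
      funext i
      rcases i with i | i | i <;> rfl
    · refine Finset.sum_congr rfl (fun i _ => ?_)
      congr 2
      congr 1
      funext j
      rcases j with j | j <;> rfl
  have hex : (∃ y : Fin (Fintype.card W) → ℚ,
      aeval (Sum.elim x y) (rename (Sum.map id eq.symm) F₁) = 0) ↔
      ∃ w : W → ℚ, aeval (Sum.elim x w) F₁ = 0 := by
    have key : ∀ y : Fin (Fintype.card W) → ℚ,
        Sum.elim x y ∘ Sum.map id eq.symm = Sum.elim x (y ∘ eq.symm) := by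
      intro y; funext i; rcases i with i | i <;> rfl
    simp only [aeval_rename, key]
    constructor
    · rintro ⟨y, hy⟩; exact ⟨_, hy⟩
    · rintro ⟨w, hw⟩
      refine ⟨w ∘ eq, ?_⟩
      have : (w ∘ eq) ∘ eq.symm = w := by funext i; simp
      rw [this]
      exact hw
  rw [hex, hF R Set.univ hR1 hR2 (fun _ => Set.mem_univ _) x]
  constructor
  · rintro ⟨u, y, hu, -, h⟩
    choose z hz using fun i => (hg (u i)).1 (hu i)
    refine ⟨Sum.elim (Sum.elim u y) (fun ij => z ij.1 ij.2), ?_⟩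
    rw [ev]
    simp only [Sum.elim_inl, Sum.elim_inr]
    rw [h, Finset.sum_eq_zero (fun i _ => by rw [hz i]; ring)]
    ring
  · rintro ⟨w, hw⟩
    rw [ev] at hw
    have h1 : 0 ≤ ∑ i : Fin m, (aeval (Sum.elim (fun _ => w (Sum.inl (Sum.inl i)))
        (fun j => w (Sum.inr (i, j)))) g) ^ 2 := Finset.sum_nonneg (fun i _ => sq_nonneg _)
    have h2 := sq_nonneg (aeval (Sum.elim x (Sum.elim (fun i => w (Sum.inl (Sum.inl i)))
        (fun i => w (Sum.inl (Sum.inr i))))) F)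
    have h3 := pow_eq_zero_iff (n := 2) (by norm_num) |>.1 (le_antisymm (by linarith) h2)
    have h4 : ∑ i : Fin m, (aeval (Sum.elim (fun _ => w (Sum.inl (Sum.inl i)))
        (fun j => w (Sum.inr (i, j)))) g) ^ 2 = 0 := le_antisymm (by linarith) h1
    rw [Finset.sum_eq_zero_iff_of_nonneg (fun i _ => sq_nonneg _)] at h4
    refine ⟨_, _, fun i => ?_, fun _ => Set.mem_univ _, h3⟩
    have h5 := pow_eq_zero_iff (n := 2) (by norm_num) |>.1 (h4 i (Finset.mem_univ i))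
    exact (hg _).2 ⟨_, h5⟩

/-- one complete recursively enumerable set -/
theorem formX_set : ∃ A : Set ℕ, REPred (fun a => a ∈ A) ∧ ¬ REPred (fun a => a ∉ A) ∧
    (∀ B : Set ℕ, REPred (fun n => n ∈ B) →
      ∃ f : ℕ → ℕ, Computable f ∧ ∀ n, (n ∈ B ↔ f n ∈ A)) ∧
    ∀ (p : ℕ) (ok : Set ℚ → Prop), FormX p ok →
      ∃ (m r : ℕ) (F : MvPolynomial (Fin 1 ⊕ Fin m ⊕ Fin r) ℤ), ∀ R R' : Set ℚ,
      (∀ (z : ℤ) (n : ℕ), (z : ℚ) / (p : ℚ) ^ n ∈ R) → ok R → (∀ z : ℤ, (z : ℚ) ∈ R') →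
      ∀ a : ℕ,
      (a ∈ A ↔ ∃ (u : Fin m → ℚ) (y : Fin r → ℚ), (∀ i, u i ∈ R) ∧ (∀ j, y j ∈ R') ∧
        aeval (Sum.elim (fun _ => (a : ℚ)) (Sum.elim u y)) F = 0) := by
  obtain ⟨P, hp, huniv⟩ := H434.universal
  refine ⟨{a | P a}, hp, ?_, fun B hB => ?_, fun p ok hform => ?_⟩
  · intro h
    obtain ⟨q, hq, hqn⟩ := N1.halting
    obtain ⟨f, hf, hfq⟩ := huniv q hq
    apply hqn
    have h1 : REPred (fun n => ¬ P (f n)) := N1.comp_re h hf
    exact h1.of_eq (fun n => by rw [← hfq n])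
  · obtain ⟨f, hf, hfB⟩ := huniv _ hB
    exact ⟨f, hf, hfB⟩
  · have hS : REPred (fun a : Fin 1 → ℤ => a ∈ {a : Fin 1 → ℤ | P (a 0).toNat}) := by
      have h1 : Computable (fun a : Fin 1 → ℤ => (a 0).toNat) :=
        (T2.primrec_toNat.comp (Primrec.fin_app.comp Primrec.id (Primrec.const 0))).to_comp
      exact N1.comp_re hp h1
    obtain ⟨m, r, F, hF⟩ := hform 1 _ hS
    refine ⟨m, r, F, fun R R' hR1 hR2 hR3 a => ?_⟩
    rw [← hF R R' hR1 hR2 hR3 (fun _ => a)]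
    constructor
    · intro ha
      exact ⟨fun _ => (a : ℤ), by simpa using ha, fun i => by simp⟩
    · rintro ⟨b, hb, hab⟩
      have h1 : b 0 = (a : ℤ) := by
        have := hab 0
        exact_mod_cast this.symm
      have h2 : P (b 0).toNat := hb
      rw [h1] at h2
      simpa using h2

end Vale.Agent.P027.T3
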