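import Vale.Agent.P027.R3.H250.CPK

set_option linter.all false

/-! Growth and divisibility of the coordinates of powers; a second soundness of the common prime
ideal predicate. -/

namespace Vale.Agent.P027.T3

open Vale.Agent.P027 Module IsDedekindDomain NumberField

variable {p : ℕ} [hpF : Fact p.Prime] {K : Type} [Field K] [NumberField K]

/-- coordinates of powers of an integral element grow at most exponentially -/
theorem coord_pow_grow (D : Fld p K) {a : K} (ha : IsIntegral ℤ a) :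
    ∃ C O : ℕ, ∀ J : ℕ, ∃ z : Fin (2 * D.m) → ℤ, (∀ i, D.bas.repr (a ^ J) i = z i) ∧
      ∑ i, (z i).natAbs ≤ C ^ J * O := by
  have hbas : ∀ j, IsIntegral ℤ (D.bas j) := by
    intro k
    rw [D.int]
    intro j
    rw [Basis.repr_self]
    by_cases hij : k = j
    · subst hij; exact ⟨1, by simp⟩
    · exact ⟨0, by simp [Finsupp.single_apply, hij]⟩
  have h1 : ∀ j i, ∃ z : ℤ, D.bas.repr (a * D.bas j) i = z := fun j i =>
    (D.int _).1 (ha.mul (hbas j)) i
  choose c hc using h1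
  have h2 : ∀ i, ∃ z : ℤ, D.bas.repr (1 : K) i = z := (D.int _).1 isIntegral_one
  choose o ho using h2
  refine ⟨∑ j, ∑ i, (c j i).natAbs, ∑ i, (o i).natAbs, fun J => ?_⟩
  induction J with
  | zero => exact ⟨o, fun i => by rw [pow_zero]; exact ho i, by simp⟩
  | succ J ih =>
    obtain ⟨z, hz, hzs⟩ := ih
    refine ⟨fun i => ∑ j, z j * c j i, fun i => ?_, ?_⟩
    · have e : a ^ (J + 1) = ∑ j, (z j : ℚ) • (a * D.bas j) := by
        have e1 : a ^ J = ∑ j, (z j : ℚ) • D.bas j := by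
          conv_lhs => rw [← D.bas.sum_repr (a ^ J)]
          exact Finset.sum_congr rfl (fun j _ => by rw [hz])
        rw [pow_succ', e1, Finset.mul_sum]
        exact Finset.sum_congr rfl (fun j _ => by rw [mul_smul_comm])
      rw [e, map_sum, Finsupp.finsetSum_apply]
      push_cast
      exact Finset.sum_congr rfl (fun j _ => by
        rw [map_smul, Finsupp.smul_apply, hc, smul_eq_mul])
    · calc ∑ i, (∑ j, z j * c j i).natAbs ≤ ∑ i, ∑ j, (z j).natAbs * (c j i).natAbs := by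
            refine Finset.sum_le_sum (fun i _ => ?_)
            refine (Int.natAbs_sum_le _ _).trans ?_
            exact Finset.sum_le_sum (fun j _ => by rw [Int.natAbs_mul])
        _ = ∑ j, (z j).natAbs * ∑ i, (c j i).natAbs := by
            rw [Finset.sum_comm]
            exact Finset.sum_congr rfl (fun j _ => by rw [Finset.mul_sum])
        _ ≤ ∑ j, (z j).natAbs * ∑ j, ∑ i, (c j i).natAbs := by
            refine Finset.sum_le_sum (fun j _ => Nat.mul_le_mul_left _ ?_)
            exact Finset.single_le_sum (f := fun j => ∑ i, (c j i).natAbs)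
              (fun _ _ => Nat.zero_le _) (Finset.mem_univ j)
        _ = (∑ j, (z j).natAbs) * ∑ j, ∑ i, (c j i).natAbs := by rw [Finset.sum_mul]
        _ ≤ ((∑ j, ∑ i, (c j i).natAbs) ^ J * ∑ i, (o i).natAbs) *
              ∑ j, ∑ i, (c j i).natAbs := Nat.mul_le_mul_right _ hzs
        _ = _ := by ring

theorem coord_grow (D : Fld p K) {α : K} (hα : Out p α) :
    ∃ A : ℕ, ∀ (J : ℕ) (i : Fin (2 * D.m)), ∃ (z : ℤ) (l : ℕ),
      D.bas.repr (α ^ J - 1) i = (z : ℚ) / (p : ℚ) ^ l ∧ z.natAbs ≤ A ^ (J + 1) := by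
  obtain ⟨k, hk⟩ := hα
  obtain ⟨C, O, h⟩ := coord_pow_grow D hk
  have h2 : ∀ i, ∃ z : ℤ, D.bas.repr (1 : K) i = z := (D.int _).1 isIntegral_one
  choose o ho using h2
  obtain ⟨O', hO'⟩ : ∃ O' : ℕ, O' = ∑ i, (o i).natAbs := ⟨_, rfl⟩
  have hp0 : (p : ℚ) ≠ 0 := by exact_mod_cast hpF.out.ne_zero
  refine ⟨C + p ^ k + O + O', fun J i => ?_⟩
  obtain ⟨z, hz, hzs⟩ := h J
  refine ⟨z i - (p ^ k) ^ J * o i, k * J, ?_, ?_⟩
  · have e : α ^ J - 1 = ((p : ℚ) ^ (k * J))⁻¹ • (((p : K) ^ k * α) ^ J) - 1 := by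
      rw [Algebra.smul_def]
      have : (p : K) ≠ 0 := by exact_mod_cast hpF.out.ne_zero
      simp only [map_inv₀, map_pow, map_natCast]
      rw [mul_pow, ← pow_mul]
      field_simp
    rw [e, map_sub, Finsupp.sub_apply, map_smul, Finsupp.smul_apply, hz, ho, smul_eq_mul]
    push_cast
    rw [← pow_mul]
    field_simp
  · have h1 : (z i).natAbs ≤ C ^ J * O :=
      (Finset.single_le_sum (f := fun i => (z i).natAbs) (fun _ _ => Nat.zero_le _)
        (Finset.mem_univ i)).trans hzs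
    have h3 : (o i).natAbs ≤ O' := by
      rw [hO']
      exact Finset.single_le_sum (f := fun i => (o i).natAbs) (fun _ _ => Nat.zero_le _)
        (Finset.mem_univ i)
    have h4 : (z i - (p ^ k) ^ J * o i).natAbs ≤ (z i).natAbs + (p ^ k) ^ J * (o i).natAbs := by
      refine (Int.natAbs_sub_le _ _).trans ?_
      rw [Int.natAbs_mul, Int.natAbs_pow, Int.natAbs_pow, Int.natAbs_natCast]
    have h5 : C ^ J ≤ (C + p ^ k + O + O') ^ J := Nat.pow_le_pow_left (by omega) _
    have h6 : (p ^ k) ^ J ≤ (C + p ^ k + O + O') ^ J := Nat.pow_le_pow_left (by omega) _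
    calc _ ≤ (z i).natAbs + (p ^ k) ^ J * (o i).natAbs := h4
      _ ≤ (C + p ^ k + O + O') ^ J * O + (C + p ^ k + O + O') ^ J * O' :=
          add_le_add (h1.trans (Nat.mul_le_mul_right _ h5)) (Nat.mul_le_mul h6 h3)
      _ = (C + p ^ k + O + O') ^ J * (O + O') := by ring
      _ ≤ (C + p ^ k + O + O') ^ J * (C + p ^ k + O + O') := Nat.mul_le_mul_left _ (by omega)
      _ = _ := by ring

theorem coord_div (D : Fld p K) {α : K} (hα0 : α ≠ 0) (hα : Out p α) (hα' : Out p α⁻¹)
    {M : ℕ} (hM : 0 < M) (hpM : ¬ p ∣ M) :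
    ∃ L : ℕ, 0 < L ∧ ∀ J : ℕ, L ∣ J → ∀ i : Fin (2 * D.m), ∃ (z : ℤ) (l : ℕ),
      D.bas.repr (α ^ J - 1) i = (M : ℚ) * z / (p : ℚ) ^ l := by
  obtain ⟨k, hk⟩ := hα
  obtain ⟨k', hk'⟩ := hα'
  have hp0 : (p : ℚ) ≠ 0 := by exact_mod_cast hpF.out.ne_zero
  have hp0' : (p : K) ≠ 0 := by exact_mod_cast hpF.out.ne_zero
  obtain ⟨a, ha⟩ : ∃ a : 𝓞 K, (a : K) = (p : K) ^ k * α := ⟨⟨_, hk⟩, rfl⟩
  obtain ⟨b, hb⟩ : ∃ b : 𝓞 K, (b : K) = (p : K) ^ k' * α⁻¹ := ⟨⟨_, hk'⟩, rfl⟩
  obtain ⟨I, hI⟩ : ∃ I : Ideal (𝓞 K), I = Ideal.span {(M : 𝓞 K)} := ⟨_, rfl⟩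
  have hI0 : I ≠ ⊥ := by
    rw [hI, Ne, Ideal.span_singleton_eq_bot]
    exact_mod_cast hM.ne'
  have hfin : Finite (𝓞 K ⧸ I) := Ideal.finiteQuotientOfFreeOfNeBot I hI0
  have hfinU : Finite (𝓞 K ⧸ I)ˣ := inferInstance
  have hpu : IsUnit (Ideal.Quotient.mk I (p : 𝓞 K)) := by
    have hco : IsCoprime (p : ℤ) (M : ℤ) := by
      rw [Nat.isCoprime_iff_coprime]
      exact (Nat.Prime.coprime_iff_not_dvd hpF.out).2 hpM
    obtain ⟨u, v, huv⟩ := hco
    refine IsUnit.of_mul_eq_one (Ideal.Quotient.mk I (u : 𝓞 K)) ?_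
    rw [← map_mul, ← map_one (Ideal.Quotient.mk I), Ideal.Quotient.eq, hI,
      Ideal.mem_span_singleton]
    refine ⟨-(v : 𝓞 K), ?_⟩
    have := congrArg (Int.cast (R := 𝓞 K)) huv
    push_cast at this
    linear_combination this
  have hab : a * b = (p : 𝓞 K) ^ (k + k') := by
    apply RingOfIntegers.ext
    simp only [map_mul, map_pow, map_natCast]
    have h0 : (a : K) * (b : K) = (p : K) ^ (k + k') := by
      rw [ha, hb, pow_add]
      field_simp
    exact h0
  have hau : IsUnit (Ideal.Quotient.mk I a) := by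
    apply isUnit_of_mul_isUnit_left (y := Ideal.Quotient.mk I b)
    rw [← map_mul, hab, map_pow]
    exact hpu.pow _
  refine ⟨Nat.card (𝓞 K ⧸ I)ˣ, Nat.card_pos, fun J hJ => ?_⟩
  have hone : ∀ x : 𝓞 K ⧸ I, IsUnit x → x ^ J = 1 := by
    rintro x ⟨u, rfl⟩
    obtain ⟨r, rfl⟩ := hJ
    have h1 : u ^ Nat.card (𝓞 K ⧸ I)ˣ = 1 := pow_card_eq_one'
    rw [pow_mul, ← Units.val_pow_eq_pow_val, h1, Units.val_one, one_pow]
  have hz : Ideal.Quotient.mk I (a ^ J - (p : 𝓞 K) ^ (k * J)) = 0 := by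
    rw [map_sub, map_pow, map_pow, hone _ hau, mul_comm k J, pow_mul, hone _ hpu, one_pow,
      sub_self]
  rw [Ideal.Quotient.eq_zero_iff_mem, hI, Ideal.mem_span_singleton] at hz
  obtain ⟨y, hy⟩ := hz
  intro i
  obtain ⟨z, hz⟩ := (D.int (y : K)).1 y.2 i
  refine ⟨z, k * J, ?_⟩
  have h3 := congrArg (fun x : 𝓞 K => (x : K)) hy
  have h4 : (p : K) ^ (k * J) * (α ^ J - 1) = (M : K) * (y : K) := by
    have : ((p : K) ^ k * α) ^ J - (p : K) ^ (k * J) = (M : K) * (y : K) := by
      rw [← ha]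
      simpa using h3
    rw [← this, mul_pow, ← pow_mul]
    ring
  have e : α ^ J - 1 = ((M : ℚ) / (p : ℚ) ^ (k * J)) • (y : K) := by
    rw [Algebra.smul_def]
    simp only [map_div₀, map_pow, map_natCast]
    field_simp
    linear_combination h4
  rw [e, map_smul, Finsupp.smul_apply, hz, smul_eq_mul]
  ring

/-- soundness for members that are not integral -/
theorem CPK.sound2 {D : Fld p K} {A : List K} (h : CPK D A) :
    ∃ q : ℕ, T2.Inert3 q ∧ q ≠ p ∧ ∃ Q : Ideal (OutRing p K), Q.IsPrime ∧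
      (q : OutRing p K) ∈ Q ∧ ∀ X ∈ A, ∀ (s : ℕ) (y : OutRing p K),
        (y : K) = (s : K) * X → y ∈ Q := by
  obtain ⟨w, ⟨k, hk⟩, hc⟩ := h
  obtain ⟨q, hq, hqp, hall⟩ := hc.sound
  have hqP := hq.1
  have hqF := Fact.mk hqP
  have hq0 : (q : K) ≠ 0 := by exact_mod_cast hqP.ne_zero
  refine ⟨q, hq, hqp, ?_⟩
  -- the products are divisible by `q`
  have hdiv : ∀ x ∈ A, Pint q (x * w / q) := by
    intro x hx
    rw [pint_iff D hqP]
    intro i
    have e : D.bas.repr (x * w / q) i = D.bas.repr (x * w) i / q := by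
      have : x * w / q = ((q : ℚ)⁻¹) • (x * w) := by
        rw [Algebra.smul_def]; simp [div_eq_mul_inv, mul_comm]
      rw [this, map_smul]
      simp [div_eq_mul_inv, mul_comm]
    rw [e]
    have h1 := hall (D.bas.repr (x * w) i) (by
      rw [List.mem_flatMap]
      exact ⟨x, hx, by rw [List.mem_ofFn]; exact ⟨i, rfl⟩⟩)
    rcases h1 with h1 | h1
    · rw [h1]; simp
    · have h2 : D.bas.repr (x * w) i ≠ 0 := by
        intro h0
        rw [h0] at h1
        simp at h1
      have h3 : (q : ℚ) ≠ 0 := by exact_mod_cast hqP.ne_zero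
      rw [padicValRat.div h2 h3, padicValRat.self hqP.one_lt]
      omega
  -- a primitive multiple
  obtain ⟨j, hj, hj'⟩ : ∃ j : ℕ, Pint q ((q : K) ^ j * w) ∧ ¬ Pint q ((q : K) ^ j * w / q) := by
    classical
    have hex := exists_pint_pow hqP w
    refine ⟨Nat.find hex, Nat.find_spec hex, ?_⟩
    rcases Nat.eq_zero_or_pos (Nat.find hex) with h0 | h0
    · rw [h0, pow_zero, one_mul]
      intro hn
      have h1 := (pint_iff D hqP).1 hn k
      have e : D.bas.repr (w / q) k = (q : ℚ)⁻¹ := by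
        have : w / q = ((q : ℚ)⁻¹) • w := by
          rw [Algebra.smul_def]; simp [div_eq_mul_inv, mul_comm]
        rw [this, map_smul]
        simp [hk]
      rw [e, padicValRat.inv, padicValRat.self hqP.one_lt] at h1
      omega
    · intro hn
      have h1 := Nat.find_min hex (m := Nat.find hex - 1) (by omega)
      apply h1
      have e : (q : K) ^ (Nat.find hex) = q ^ (Nat.find hex - 1) * q := by
        rw [← pow_succ]; congr 1; omega
      rw [e] at hn
      have e2 : ∀ M : K, M * q * w / q = M * w := by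
        intro M; field_simp
      rwa [e2] at hn
  obtain ⟨w', hw'⟩ : ∃ w' : K, w' = (q : K) ^ j * w := ⟨_, rfl⟩
  rw [← hw'] at hj hj'
  -- the ideal
  let I : Ideal (OutRing p K) :=
    { carrier := {y | Pint q ((y : K) * w' / q)}
      add_mem' := by
        intro a b ha hb
        simp only [Set.mem_ofPred_eq] at *
        have e : ((a + b : OutRing p K) : K) * w' / q = (a : K) * w' / q + (b : K) * w' / q := by
          push_cast; ring
        rw [e]
        exact ha.add hqP hb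
      zero_mem' := by
        simp only [Set.mem_ofPred_eq]
        have e : ((0 : OutRing p K) : K) * w' / q = 0 := by simp
        rw [e]
        exact Pint.of_integral hqP isIntegral_zero
      smul_mem' := by
        intro c a ha
        simp only [Set.mem_ofPred_eq] at *
        have e : ((c • a : OutRing p K) : K) * w' / q = (c : K) * ((a : K) * w' / q) := by
          rw [smul_eq_mul]; push_cast; ring
        rw [e]
        exact (Pint.of_out hqP hqp c.2).mul hqP ha }
  have hI : ∀ y : OutRing p K, y ∈ I ↔ Pint q ((y : K) * w' / q) := fun y => Iff.rfl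
  have hItop : I ≠ ⊤ := by
    intro h
    have : (1 : OutRing p K) ∈ I := by rw [h]; trivial
    rw [hI] at this
    apply hj'
    simpa using this
  obtain ⟨Q, hQ, hIQ⟩ := Ideal.exists_le_maximal I hItop
  refine ⟨Q, hQ.isPrime, hIQ ?_, fun X hX s y hy => hIQ ?_⟩
  · rw [hI]
    have e : (((q : OutRing p K) : OutRing p K) : K) * w' / q = w' := by
      push_cast; field_simp
    rw [e]
    exact hj
  · rw [hI]
    have e : (y : K) * w' / q = (s : K) * ((q : K) ^ j * (X * w / q)) := by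
      rw [hw', hy]; ring
    rw [e]
    refine (Pint.natCast hqP s).mul hqP (Pint.mul hqP ?_ (hdiv _ hX))
    have := Pint.natCast (K := K) hqP (q ^ j)
    simpa using this

end Vale.Agent.P027.T3
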