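import Vale.Agent.P027.R3.H250.P0

set_option linter.all false

/-! Integrality at `p` in terms of the embeddings. -/

namespace Vale.Agent.P027.T3

open Vale.Agent.P027 Module IsDedekindDomain NumberField Polynomial

variable {p : ℕ} [hpF : Fact p.Prime] {K : Type} [Field K] [NumberField K]

theorem padic_norm_ratCast_le_one {x : ℚ} (h : ‖(x : ℚ_[p])‖ ≤ 1) : ¬ p ∣ x.den := by
  rw [Padic.eq_padicNorm] at h
  have h1 : padicNorm p x ≤ 1 := by exact_mod_cast h
  exact (val_nonneg_iff hpF.out x).1 (pn_le_one_iff.1 h1)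

theorem padic_int_of_isIntegral {y : ℚ_[p]} (hy : IsIntegral ℤ y) : ‖y‖ ≤ 1 := by
  have h1 : IsIntegral ℤ_[p] y := hy.tower_top
  obtain ⟨z, hz⟩ := IsIntegrallyClosed.isIntegral_iff.1 h1
  rw [← hz]
  exact z.norm_le_one

theorem norm_nat_eq_one {s : ℕ} (hs : ¬ p ∣ s) : ‖(s : ℚ_[p])‖ = 1 := by
  exact Padic.norm_natCast_eq_one_iff.2 ((Nat.Prime.coprime_iff_not_dvd hpF.out).2 hs)

theorem norm_le_of_pint (D : Fld p K) {x : K} (h : Pint p x) (i : ℕ) :
    ‖D.φ ((D.σ ^ i) x)‖ ≤ 1 := by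
  obtain ⟨s, hs, hi⟩ := h
  have h1 : IsIntegral ℤ ((s : ℚ_[p]) * D.φ ((D.σ ^ i) x)) := by
    have h2 := (hi.map ((D.σ ^ i).toAlgHom.restrictScalars ℤ)).map (D.φ.toIntAlgHom)
    have e : D.φ.toIntAlgHom (((D.σ ^ i).toAlgHom.restrictScalars ℤ) ((s : K) * x)) =
        (s : ℚ_[p]) * D.φ ((D.σ ^ i) x) := by
      show D.φ ((D.σ ^ i) ((s : K) * x)) = _
      rw [map_mul, map_natCast, map_mul, map_natCast]
    rw [e] at h2
    exact h2
  have h3 := padic_int_of_isIntegral h1
  rwa [norm_mul, norm_nat_eq_one hs, one_mul] at h3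

/-- a root of a monic rational polynomial with `p`-integral coefficients -/
theorem pint_of_poly {x : K} {f : ℚ[X]} (hf : f.Monic) (hx : aeval x f = 0)
    (hc : ∀ j, ¬ p ∣ (f.coeff j).den) : Pint p x := by
  obtain ⟨s, hs⟩ : ∃ s : ℕ, s = ∏ j ∈ Finset.range f.natDegree, (f.coeff j).den := ⟨_, rfl⟩
  refine ⟨s, ?_, ?_⟩
  · rw [hs]
    intro hd
    obtain ⟨j, -, hj⟩ := (hpF.out.prime.dvd_finsetProd_iff _).1 hd
    exact hc j hj
  · have h1 : aeval ((s : ℚ) • x) (scaleRoots f s) = 0 := by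
      have := scaleRoots_aeval_eq_zero (r := (s : ℚ)) hx
      rw [Algebra.smul_def]
      exact this
    have hm : (scaleRoots f (s : ℚ)).Monic := (monic_scaleRoots_iff _).2 hf
    have hint : scaleRoots f (s : ℚ) ∈ lifts (Int.castRingHom ℚ) := by
      rw [lifts_iff_coeff_lifts]
      intro j
      rw [coeff_scaleRoots]
      rcases lt_trichotomy j f.natDegree with hj | hj | hj
      · have h2 : (f.coeff j).den ∣ s := by
          rw [hs]
          exact Finset.dvd_prod_of_mem _ (Finset.mem_range.2 hj)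
        obtain ⟨t, ht⟩ := h2
        obtain ⟨k, hk⟩ : ∃ k, f.natDegree - j = k + 1 := ⟨f.natDegree - j - 1, by omega⟩
        refine ⟨(f.coeff j).num * t * s ^ k, ?_⟩
        rw [hk, pow_succ]
        have h3 := Rat.den_mul_eq_num (f.coeff j)
        have h4 : (s : ℚ) = (f.coeff j).den * t := by exact_mod_cast ht
        simp only [eq_intCast]
        push_cast
        rw [← h3]
        conv_rhs => rw [show f.coeff j * ((s : ℚ) ^ k * s) = f.coeff j * s * (s : ℚ) ^ k by ring,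
          h4]
        conv_lhs => rw [h4]
        ring
      · rw [hj, Nat.sub_self, pow_zero, mul_one, coeff_natDegree, hf]
        exact ⟨1, by simp⟩
      · rw [coeff_eq_zero_of_natDegree_lt hj, zero_mul]
        exact ⟨0, by simp⟩
    obtain ⟨g, hg, -, hgm⟩ := lifts_and_natDegree_eq_and_monic hint hm
    refine ⟨g, hgm, ?_⟩
    have h5 : (s : K) * x = (s : ℚ) • x := by rw [Algebra.smul_def]; simp
    rw [h5]
    rw [← hg, aeval_def, eval₂_map] at h1
    have e : (algebraMap ℚ K).comp (Int.castRingHom ℚ) = algebraMap ℤ K := RingHom.ext_int _ _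
    rw [e] at h1
    exact h1

/-- conjugates are images under the powers of `σ` -/
theorem conj_eq (D : Fld p K) {x a : K} (ha : aeval a (minpoly ℚ x) = 0) :
    ∃ i, i < 2 * D.m ∧ a = (D.σ ^ i) x := by
  have := D.gal
  have hx : IsIntegral ℚ x := Algebra.IsIntegral.isIntegral x
  obtain ⟨τ, hτ⟩ := minpoly.exists_algEquiv_of_root' (Algebra.IsAlgebraic.isAlgebraic x) ha
  obtain ⟨i, hi, rfl⟩ := D.gen τ
  exact ⟨i, hi, hτ.symm⟩

theorem pint_of_norm_le (D : Fld p K) {x : K} (h : ∀ i < 2 * D.m, ‖D.φ ((D.σ ^ i) x)‖ ≤ 1) :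
    Pint p x := by
  have := D.gal
  have hx : IsIntegral ℚ x := Algebra.IsIntegral.isIntegral x
  have hm := minpoly.monic hx
  refine pint_of_poly hm (minpoly.aeval ℚ x) (fun j => ?_)
  apply padic_norm_ratCast_le_one
  have hsp : ((minpoly ℚ x).map (algebraMap ℚ K)).Splits := Normal.splits inferInstance x
  have h1 := hsp.eq_prod_roots_of_monic (hm.map _)
  have h2 : (minpoly ℚ x).map (algebraMap ℚ ℚ_[p]) =
      ((((minpoly ℚ x).map (algebraMap ℚ K)).roots.map D.φ).map (fun a => X - C a)).prod := by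
    have e : (algebraMap ℚ ℚ_[p]) = D.φ.comp (algebraMap ℚ K) := Subsingleton.elim _ _
    rw [e, ← Polynomial.map_map]
    conv_lhs => rw [h1]
    rw [Polynomial.map_multiset_prod, Multiset.map_map, Multiset.map_map]
    simp
  have h3 : (minpoly ℚ x).map (algebraMap ℚ ℚ_[p]) ∈ lifts (PadicInt.subring p).subtype := by
    rw [h2]
    refine (lifts (PadicInt.subring p).subtype).multiset_prod_mem _ (fun g hg => ?_)
    obtain ⟨b, hb, rfl⟩ := Multiset.mem_map.1 hg
    obtain ⟨a, ha, rfl⟩ := Multiset.mem_map.1 hb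
    obtain ⟨i, hi, rfl⟩ := conj_eq D (x := x) (a := a) (by
      have := (mem_roots (hm.map (algebraMap ℚ K)).ne_zero).1 ha
      rwa [IsRoot.def, eval_map_algebraMap] at this)
    refine ⟨X - C ⟨_, h i hi⟩, ?_⟩
    simp
  rw [lifts_iff_coeff_lifts] at h3
  obtain ⟨z, hz⟩ := h3 j
  rw [coeff_map] at hz
  have : ((algebraMap ℚ ℚ_[p]) ((minpoly ℚ x).coeff j)) = (((minpoly ℚ x).coeff j : ℚ) : ℚ_[p]) := by
    simp
  rw [← this, ← hz]
  exact z.2

end Vale.Agent.P027.T3
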